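import Vale.Agent.P238.Defs
import Mathlib.Data.ZMod.Basic
import Mathlib.Algebra.BigOperators.Fin
import Mathlib.Data.Fintype.Pi
import Mathlib.Tactic.Linarith
import Mathlib.Tactic.Ring
import Mathlib.Tactic.NormNum

/-!
The Fourier inequality on the seven-dimensional cube: translating by the all-ones vector costs at
most one third of all seven coordinate flips plus three translations spanning the simplex code,
first for squares of real functions and then for maps into `ℓ₁`.
-/

namespace Vale.Agent.P238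

/-- The cube `F₂⁷`. -/
abbrev Cube : Type := Fin 7 → ZMod 2

/-- The `i`-th generator of the `[7,3]` simplex code. -/
def simplexGen (i : Fin 3) : Cube := fun j => (((j.1 + 1) / 2 ^ i.1 : ℕ) : ZMod 2)

/-- The sign of an element of `F₂`. -/
def sgn (x : ZMod 2) : ℤ := if x = 0 then 1 else -1

theorem sgn_add : ∀ x y : ZMod 2, sgn (x + y) = sgn x * sgn y := by decide

theorem sgn_sq : ∀ x : ZMod 2, sgn x * sgn x = 1 := by decide

/-- The Walsh character. -/
def chi (S z : Cube) : ℤ := sgn (∑ j, S j * z j)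

theorem chi_add (S x y : Cube) : chi S (x + y) = chi S x * chi S y := by
  simp [chi, mul_add, Finset.sum_add_distrib, sgn_add]

theorem chi_add_left (S T x : Cube) : chi (S + T) x = chi S x * chi T x := by
  simp [chi, add_mul, Finset.sum_add_distrib, sgn_add]

theorem chi_sq (S x : Cube) : chi S x * chi S x = 1 := sgn_sq _

theorem chi_gap : ∀ S : Cube, 3 * (1 - chi S 1) ≤
    ∑ j : Fin 7, (1 - chi S (Pi.single j 1)) + 3 * ∑ i : Fin 3, (1 - chi S (simplexGen i)) := by
  decide +kernel

theorem sum_chi {w : Cube} (hw : w ≠ 0) : ∑ S : Cube, (chi S w : ℝ) = 0 := by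
  obtain ⟨j, hj⟩ : ∃ j, w j ≠ 0 := by
    by_contra h
    exact hw (funext fun j => by_contra fun hj => h ⟨j, hj⟩)
  have hwj : w j = 1 := by
    have : ∀ x : ZMod 2, x ≠ 0 → x = 1 := by decide
    exact this _ hj
  have key : chi (Pi.single j 1) w = -1 := by
    simp [chi, Pi.single_apply, hwj, sgn]
  have : ∑ S : Cube, (chi S w : ℝ) = - ∑ S : Cube, (chi S w : ℝ) := by
    rw [← Finset.sum_neg_distrib]
    exact (Fintype.sum_equiv (Equiv.addRight (Pi.single j 1)) _ _ fun S => by
      simp [chi_add_left, key]).symm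
  linarith

theorem sum_chi_mul (x y : Cube) :
    ∑ S : Cube, (chi S x : ℝ) * chi S y = if x = y then 128 else 0 := by
  split_ifs with h
  · subst h
    simp [← Int.cast_mul, chi_sq]
  · have hne : x + y ≠ 0 := by
      intro he
      apply h
      funext j
      have := congrFun he j
      simp only [Pi.add_apply, Pi.zero_apply] at this
      revert this
      generalize x j = a
      generalize y j = b
      revert a b
      decide
    rw [← sum_chi hne]
    simp [chi_add]

/-- The Walsh transform. -/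
def walsh (f : Cube → ℝ) (S : Cube) : ℝ := ∑ z, (chi S z : ℝ) * f z

theorem sum_walsh_sq (f : Cube → ℝ) : ∑ S, walsh f S ^ 2 = 128 * ∑ z, f z ^ 2 := by
  calc ∑ S, walsh f S ^ 2
      = ∑ S, ∑ x, ∑ y, (chi S x : ℝ) * chi S y * (f x * f y) := by
        refine Finset.sum_congr rfl fun S _ => ?_
        rw [sq, walsh, Finset.sum_mul_sum]
        refine Finset.sum_congr rfl fun x _ => Finset.sum_congr rfl fun y _ => by ring
    _ = ∑ x, ∑ y, (∑ S, (chi S x : ℝ) * chi S y) * (f x * f y) := by
        rw [Finset.sum_comm]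
        refine Finset.sum_congr rfl fun x _ => ?_
        rw [Finset.sum_comm]
        refine Finset.sum_congr rfl fun y _ => ?_
        rw [Finset.sum_mul]
    _ = 128 * ∑ z, f z ^ 2 := by
        rw [Finset.mul_sum]
        refine Finset.sum_congr rfl fun x _ => ?_
        simp only [sum_chi_mul, ite_mul, zero_mul, Finset.sum_ite_eq, Finset.mem_univ, if_true]
        ring

theorem walsh_translate (f : Cube → ℝ) (S h : Cube) :
    walsh (fun z => f z - f (z + h)) S = (1 - chi S h) * walsh f S := by
  unfold walsh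
  simp only [mul_sub, Finset.sum_sub_distrib, sub_mul, one_mul]
  congr 1
  rw [Finset.mul_sum]
  refine Fintype.sum_equiv (Equiv.addRight h) _ _ fun z => ?_
  simp only [Equiv.coe_addRight, chi_add, Int.cast_mul]
  have : (chi S h : ℝ) * chi S h = 1 := by exact_mod_cast chi_sq S h
  calc (chi S z : ℝ) * f (z + h)
      = ((chi S h : ℝ) * chi S h) * (chi S z * f (z + h)) := by rw [this, one_mul]
    _ = _ := by ring

theorem sum_sq_translate (f : Cube → ℝ) (h : Cube) :
    128 * ∑ z, (f z - f (z + h)) ^ 2 = ∑ S, 2 * (1 - (chi S h : ℝ)) * walsh f S ^ 2 := by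
  rw [← sum_walsh_sq]
  refine Finset.sum_congr rfl fun S _ => ?_
  rw [walsh_translate]
  have : (chi S h : ℝ) * chi S h = 1 := by exact_mod_cast chi_sq S h
  linear_combination (walsh f S ^ 2) * this

theorem cube_sq_le (f : Cube → ℝ) :
    ∑ z, (f z - f (z + 1)) ^ 2 ≤ (1 / 3) * ∑ j : Fin 7, ∑ z, (f z - f (z + Pi.single j 1)) ^ 2
      + ∑ i : Fin 3, ∑ z, (f z - f (z + simplexGen i)) ^ 2 := by
  have key : ∑ S, 2 * walsh f S ^ 2 * (3 * (1 - (chi S 1 : ℝ))) ≤
      ∑ S, 2 * walsh f S ^ 2 * (∑ j : Fin 7, (1 - (chi S (Pi.single j 1) : ℝ))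
        + 3 * ∑ i : Fin 3, (1 - (chi S (simplexGen i) : ℝ))) := by
    refine Finset.sum_le_sum fun S _ => mul_le_mul_of_nonneg_left ?_ (by positivity)
    exact_mod_cast chi_gap S
  have e1 : ∑ S, 2 * walsh f S ^ 2 * (3 * (1 - (chi S 1 : ℝ)))
      = 3 * (128 * ∑ z, (f z - f (z + 1)) ^ 2) := by
    rw [sum_sq_translate, Finset.mul_sum]
    exact Finset.sum_congr rfl fun S _ => by ring
  have e2 : ∑ S, 2 * walsh f S ^ 2 * (∑ j : Fin 7, (1 - (chi S (Pi.single j 1) : ℝ))
        + 3 * ∑ i : Fin 3, (1 - (chi S (simplexGen i) : ℝ)))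
      = ∑ j : Fin 7, (128 * ∑ z, (f z - f (z + Pi.single j 1)) ^ 2)
        + 3 * ∑ i : Fin 3, (128 * ∑ z, (f z - f (z + simplexGen i)) ^ 2) := by
    simp only [sum_sq_translate]
    simp only [mul_add, Finset.mul_sum, Finset.sum_add_distrib]
    congr 1
    · rw [Finset.sum_comm]
      exact Finset.sum_congr rfl fun j _ => Finset.sum_congr rfl fun S _ => by ring
    · rw [Finset.sum_comm]
      exact Finset.sum_congr rfl fun i _ => Finset.sum_congr rfl fun S _ => by ring
  rw [e1, e2, ← Finset.mul_sum, ← Finset.mul_sum] at key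
  linarith

/-- Every real function on a finite type is, in the line metric, a sum of squared differences. -/
theorem exists_cut_decomposition {V : Type*} [Fintype V] (g : V → ℝ) :
    ∃ (K : ℕ) (h : Fin K → V → ℝ), ∀ x y, |g x - g y| = ∑ k, (h k x - h k y) ^ 2 := by
  classical
  suffices ∀ (n : ℕ) (g : V → ℝ), (Finset.univ.image g).card ≤ n →
      ∃ (K : ℕ) (h : Fin K → V → ℝ), ∀ x y, |g x - g y| = ∑ k, (h k x - h k y) ^ 2 from
    this _ g le_rfl
  intro n
  induction n with
  | zero =>
    intro g hg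
    refine ⟨0, Fin.elim0, fun x y => ?_⟩
    have : g x ∈ Finset.univ.image g := Finset.mem_image_of_mem _ (Finset.mem_univ x)
    simp [Finset.card_eq_zero.1 (Nat.le_zero.1 hg)] at this
  | succ n ih =>
    intro g hg
    rcases Finset.eq_empty_or_nonempty (Finset.univ.image g) with he | he
    · exact ih g (by simp [he])
    set m := (Finset.univ.image g).max' he with hm
    have hle : ∀ x, g x ≤ m := fun x =>
      Finset.le_max' _ _ (Finset.mem_image_of_mem _ (Finset.mem_univ x))
    have hmem : m ∈ Finset.univ.image g := Finset.max'_mem _ _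
    rcases Finset.eq_empty_or_nonempty ((Finset.univ.image g).erase m) with hr | hr
    · refine ⟨0, Fin.elim0, fun x y => ?_⟩
      have : ∀ x, g x = m := fun x => by
        by_contra hx
        have : g x ∈ (Finset.univ.image g).erase m :=
          Finset.mem_erase.2 ⟨hx, Finset.mem_image_of_mem _ (Finset.mem_univ x)⟩
        simp [hr] at this
      simp [this]
    set m' := ((Finset.univ.image g).erase m).max' hr with hm'
    have hm'mem := Finset.max'_mem _ hr
    have hlt : m' < m := by
      rcases Finset.mem_erase.1 hm'mem with ⟨h1, h2⟩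
      exact lt_of_le_of_ne (Finset.le_max' _ _ h2) h1
    have hsecond : ∀ x, g x ≠ m → g x ≤ m' := fun x hx =>
      Finset.le_max' _ _ (Finset.mem_erase.2 ⟨hx, Finset.mem_image_of_mem _ (Finset.mem_univ x)⟩)
    obtain ⟨K, h, hK⟩ := ih (fun x => min (g x) m') (by
      have hsub : Finset.univ.image (fun x => min (g x) m') ⊆ (Finset.univ.image g).erase m := by
        intro t ht
        obtain ⟨x, -, rfl⟩ := Finset.mem_image.1 ht
        rcases eq_or_ne (g x) m with hx | hx
        · rw [min_eq_right (by linarith)]; exact hm'mem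
        · rw [min_eq_left (hsecond x hx)]
          exact Finset.mem_erase.2 ⟨hx, Finset.mem_image_of_mem _ (Finset.mem_univ x)⟩
      have := Finset.card_le_card hsub
      rw [Finset.card_erase_of_mem hmem] at this
      omega)
    refine ⟨K + 1, Fin.cons (fun x => if g x = m then Real.sqrt (m - m') else 0) h,
      fun x y => ?_⟩
    rw [Fin.sum_univ_succ]
    simp only [Fin.cons_zero, Fin.cons_succ, ← hK]
    have hs : Real.sqrt (m - m') ^ 2 = m - m' := Real.sq_sqrt (by linarith)
    rcases eq_or_ne (g x) m with hx | hx <;> rcases eq_or_ne (g y) m with hy | hy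
    · simp [hx, hy]
    · have := hsecond y hy
      rw [if_pos hx, if_neg hy, sub_zero, hs, hx, min_eq_right hlt.le, min_eq_left this,
        abs_of_nonneg (by linarith), abs_of_nonneg (by linarith)]
      ring
    · have := hsecond x hx
      rw [if_neg hx, if_pos hy, zero_sub, neg_sq, hs, hy, min_eq_right hlt.le, min_eq_left this,
        abs_of_nonpos (by linarith), abs_of_nonpos (by linarith)]
      ring
    · simp [hx, hy, min_eq_left (hsecond x hx), min_eq_left (hsecond y hy)]

theorem ellOne_norm (u : EllOne) : ‖u‖ = ∑' k, |u k| := by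
  rw [lp.norm_eq_tsum_rpow (by norm_num)]
  simp

theorem ellOne_summable (u : EllOne) : Summable fun k => |u k| := by
  have := (lp.memℓp u).summable (by norm_num)
  simpa using this

/-- The inequality inherited by a group containing a copy of the cube, for maps into `ℓ₁`. -/
theorem cube_norm_le {V : Type*} [AddCommGroup V] [Fintype V] (ι : Cube → V)
    (hι : ∀ x y, ι (x + y) = ι x + ι y) (F : V → EllOne) :
    ∑ v, ‖F v - F (v + ι 1)‖ ≤ (1 / 3) * ∑ j : Fin 7, ∑ v, ‖F v - F (v + ι (Pi.single j 1))‖
      + ∑ i : Fin 3, ∑ v, ‖F v - F (v + ι (simplexGen i))‖ := by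
  have hsq : ∀ f : V → ℝ, ∑ v, (f v - f (v + ι 1)) ^ 2 ≤
      (1 / 3) * ∑ j : Fin 7, ∑ v, (f v - f (v + ι (Pi.single j 1))) ^ 2
        + ∑ i : Fin 3, ∑ v, (f v - f (v + ι (simplexGen i))) ^ 2 := by
    intro f
    have avg : ∀ h : Cube, ∑ v, ∑ z, (f (v + ι z) - f (v + ι (z + h))) ^ 2
        = 128 * ∑ v, (f v - f (v + ι h)) ^ 2 := by
      intro h
      rw [Finset.sum_comm]
      have : ∀ z, ∑ v, (f (v + ι z) - f (v + ι (z + h))) ^ 2
          = ∑ v, (f v - f (v + ι h)) ^ 2 := fun z =>
        Fintype.sum_equiv (Equiv.addRight (ι z)) _ _ fun v => by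
          simp [hι, add_assoc]
      simp [this]
    have := Finset.sum_le_sum (s := (Finset.univ : Finset V))
      fun v _ => cube_sq_le fun z => f (v + ι z)
    have e : ∀ {κ : Type} [Fintype κ] (H : κ → Cube),
        ∑ v, ∑ j, ∑ z, (f (v + ι z) - f (v + ι (z + H j))) ^ 2
          = 128 * ∑ j, ∑ v, (f v - f (v + ι (H j))) ^ 2 := by
      intro κ _ H
      rw [Finset.sum_comm]
      simp only [avg, Finset.mul_sum]
    simp only [Finset.sum_add_distrib, ← Finset.mul_sum] at this
    rw [avg, e fun j : Fin 7 => Pi.single j 1, e fun i : Fin 3 => simplexGen i] at this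
    linarith
  have habs : ∀ g : V → ℝ, ∑ v, |g v - g (v + ι 1)| ≤
      (1 / 3) * ∑ j : Fin 7, ∑ v, |g v - g (v + ι (Pi.single j 1))|
        + ∑ i : Fin 3, ∑ v, |g v - g (v + ι (simplexGen i))| := by
    intro g
    obtain ⟨K, h, hK⟩ := exists_cut_decomposition g
    have := Finset.sum_le_sum (s := (Finset.univ : Finset (Fin K))) fun k _ => hsq (h k)
    simp only [Finset.sum_add_distrib, ← Finset.mul_sum] at this
    have e : ∀ {κ : Type} [Fintype κ] (H : κ → Cube),
        ∑ k, ∑ j, ∑ v, (h k v - h k (v + ι (H j))) ^ 2 = ∑ j, ∑ v, |g v - g (v + ι (H j))| := by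
      intro κ _ H
      rw [Finset.sum_comm]
      refine Finset.sum_congr rfl fun j _ => ?_
      rw [Finset.sum_comm]
      simp only [hK]
    have e1 : ∑ k, ∑ v, (h k v - h k (v + ι 1)) ^ 2 = ∑ v, |g v - g (v + ι 1)| := by
      rw [Finset.sum_comm]
      simp only [hK]
    rw [e1, e fun j : Fin 7 => Pi.single j 1, e fun i : Fin 3 => simplexGen i] at this
    exact this
  have hs : ∀ h : V, Summable fun k => ∑ v, |F v k - F (v + h) k| := fun h =>
    summable_sum fun v _ => by simpa using ellOne_summable (F v - F (v + h))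
  have hn : ∀ h : V, ∑ v, ‖F v - F (v + h)‖ = ∑' k, ∑ v, |F v k - F (v + h) k| := fun h => by
    rw [Summable.tsum_finsetSum fun v _ => by simpa using ellOne_summable (F v - F (v + h))]
    simp [ellOne_norm]
  have h7 : Summable fun k => ∑ j : Fin 7, ∑ v, |F v k - F (v + ι (Pi.single j 1)) k| :=
    summable_sum fun j _ => hs _
  have h3 : Summable fun k => ∑ i : Fin 3, ∑ v, |F v k - F (v + ι (simplexGen i)) k| :=
    summable_sum fun i _ => hs _
  simp only [hn]
  calc ∑' k, ∑ v, |F v k - F (v + ι 1) k|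
      ≤ ∑' k, ((1 / 3) * ∑ j : Fin 7, ∑ v, |F v k - F (v + ι (Pi.single j 1)) k|
          + ∑ i : Fin 3, ∑ v, |F v k - F (v + ι (simplexGen i)) k|) :=
        (hs _).tsum_le_tsum (fun k => habs fun v => F v k) ((h7.mul_left _).add h3)
    _ = _ := by
        rw [(h7.mul_left _).tsum_add h3, tsum_mul_left,
          Summable.tsum_finsetSum fun j _ => hs _, Summable.tsum_finsetSum fun i _ => hs _]

end Vale.Agent.P238
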