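import Vale.Agent.P238.Edit
import Vale.Agent.P238.Cube
import Mathlib.Data.Fin.Tuple.Basic
import Mathlib.Data.Nat.Count

/-!
The recursive family of words. A node has seven children; its word consists of `M³` windows, the
window `l` listing the seven children's words with the bits of the simplex code word `shift M l`
deciding which of the two states of each child is used.
-/

namespace Vale.Agent.P238

/-- Leaves of the seven-ary tree of depth `J`. -/
abbrev Leaf (J : ℕ) : Type := Fin J → Fin 7

/-- Configurations: one bit per leaf. -/
abbrev Cfg (J : ℕ) : Type := Leaf J → ZMod 2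

/-- Symbols: a leaf with a bit. -/
abbrev Sym (J : ℕ) : Type := Leaf J × ZMod 2

/-- The constant configuration. -/
def cst {J : ℕ} (c : ZMod 2) : Cfg J := fun _ => c

/-- The configuration of the `j`-th subtree. -/
def child {J : ℕ} (j : Fin 7) (v : Cfg (J + 1)) : Cfg J := fun p => v (Fin.cons j p)

/-- A symbol of the `j`-th subtree as a symbol of the tree. -/
def tag {J : ℕ} (j : Fin 7) (s : Sym J) : Sym (J + 1) := (Fin.cons j s.1, s.2)

/-- The code word used by window `l`. -/
def shift (M l : ℕ) : Cube := fun j => ∑ i : Fin 3, ((l / M ^ i.1 : ℕ) : ZMod 2) * simplexGen i j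

/-- The word of a configuration. -/
def word (M : ℕ) : (J : ℕ) → Cfg J → List (Sym J)
  | 0, v => [(Fin.elim0, v Fin.elim0)]
  | J + 1, v => (List.range (M ^ 3)).flatMap fun l =>
      (List.finRange 7).flatMap fun j => (word M J (child j v + cst (shift M l j))).map (tag j)

/-- A window. -/
def window (M : ℕ) {J : ℕ} (v : Cfg (J + 1)) (c : Cube) : List (Sym (J + 1)) :=
  (List.finRange 7).flatMap fun j => (word M J (child j v + cst (c j))).map (tag j)

/-- The list of code words, translated by `c`. -/
def row (M : ℕ) (c : Cube) : List Cube := (List.range (M ^ 3)).map fun l => c + shift M l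

/-- Translation of the child bits. -/
def lift {J : ℕ} (z : Cube) : Cfg (J + 1) := fun p => z (p 0)

/-- A configuration supported on the `j`-th subtree. -/
def single {J : ℕ} (j : Fin 7) (u : Cfg J) : Cfg (J + 1) :=
  fun p => if p 0 = j then u (Fin.tail p) else 0

/-- The word length. -/
def wlen (M J : ℕ) : ℕ := (7 * M ^ 3) ^ J

theorem zmod2_add_self (x : ZMod 2) : x + x = 0 := by
  revert x; decide

theorem cfg_add_self {J : ℕ} (v : Cfg J) : v + v = 0 := funext fun _ => zmod2_add_self _

theorem cst_zero {J : ℕ} : cst (J := J) 0 = 0 := rfl

theorem cst_one {J : ℕ} : cst (J := J) 1 = 1 := rfl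

theorem cst_add {J : ℕ} (a b : ZMod 2) : cst (J := J) (a + b) = cst a + cst b := rfl

theorem lift_one {J : ℕ} : lift (J := J) 1 = 1 := rfl

theorem lift_add {J : ℕ} (x y : Cube) : lift (J := J) (x + y) = lift x + lift y := rfl

theorem lift_single {J : ℕ} (j : Fin 7) : lift (J := J) (Pi.single j 1) = single j 1 := by
  funext p
  simp [lift, single, Pi.single_apply]

theorem child_add {J : ℕ} (j : Fin 7) (v w : Cfg (J + 1)) :
    child j (v + w) = child j v + child j w := rfl

theorem child_lift {J : ℕ} (j : Fin 7) (z : Cube) :
    child j (lift (J := J) z) = cst (z j) := by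
  funext p
  simp [child, lift, cst]

theorem child_single {J : ℕ} (j k : Fin 7) (u : Cfg J) :
    child k (single j u) = if k = j then u else 0 := by
  funext p
  split_ifs with h <;> simp [child, single, h]

theorem single_add {J : ℕ} (j : Fin 7) (u w : Cfg J) :
    single j (u + w) = single j u + single j w := by
  funext p
  simp only [single, Pi.add_apply]
  split_ifs <;> simp

theorem window_lift (M : ℕ) {J : ℕ} (v : Cfg (J + 1)) (z c : Cube) :
    window M (v + lift z) c = window M v (z + c) := by
  simp only [window, child_add, child_lift, Pi.add_apply, cst_add, add_assoc]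

theorem word_succ (M : ℕ) {J : ℕ} (v : Cfg (J + 1)) :
    word M (J + 1) v = (row M 0).flatMap (window M v) := by
  simp [word, row, window, List.flatMap_map]

theorem word_lift (M : ℕ) {J : ℕ} (v : Cfg (J + 1)) (z : Cube) :
    word M (J + 1) (v + lift z) = (row M z).flatMap (window M v) := by
  simp [word_succ, row, List.flatMap_map, window_lift]

theorem word_add_one (M : ℕ) {J : ℕ} (v : Cfg (J + 1)) :
    word M (J + 1) (v + 1) = (row M 1).flatMap (window M v) := by
  rw [← lift_one, word_lift]

theorem length_word (M : ℕ) : ∀ (J : ℕ) (v : Cfg J), (word M J v).length = wlen M J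
  | 0, v => by simp [word, wlen]
  | J + 1, v => by
    simp [word, List.length_flatMap, length_word M J, wlen, pow_succ]
    ring

theorem length_window (M : ℕ) {J : ℕ} (v : Cfg (J + 1)) (c : Cube) :
    (window M v c).length = 7 * wlen M J := by
  simp [window, List.length_flatMap, length_word]
  ring

/-- Carries into the digit of weight `P` are rare. -/
theorem countP_carry_le {P m R : ℕ} (hP : 0 < P) (hd : P ∣ R) :
    ((List.range R).countP fun l => decide ((m + l) / P ≠ l / P)) ≤ R / P * m := by
  have : Nat.count (fun l => (m + l) / P ≠ l / P) R ≤ R / P * m := by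
    rw [Nat.count_eq_card_filter_range]
    have hcard : R / P * m = (Finset.range (R / P) ×ˢ Finset.range m).card := by simp
    rw [hcard]
    refine Finset.card_le_card_of_injOn (fun l => (l / P, P - 1 - l % P)) ?_ ?_
    · intro l hl
      simp only [Finset.coe_filter, Finset.mem_range, Set.mem_setOf_eq] at hl
      have h1 : P ≤ l % P + m := by
        by_contra h
        apply hl.2
        rw [show m + l = (l % P + m) + P * (l / P) by
          have := Nat.mod_add_div l P; omega, Nat.add_mul_div_left _ _ hP,
          Nat.div_eq_of_lt (by omega), Nat.zero_add]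
      have h2 := Nat.mod_lt l hP
      simp only [Finset.coe_product, Set.mem_prod, Finset.coe_range, Set.mem_Iio]
      exact ⟨Nat.div_lt_div_of_lt_of_dvd hd hl.1, by omega⟩
    · intro a _ b _ hab
      simp only [Prod.mk.injEq] at hab
      have ha := Nat.mod_lt a hP
      have hb := Nat.mod_lt b hP
      have := Nat.mod_add_div a P
      have := Nat.mod_add_div b P
      rw [hab.1] at *
      omega
  simpa [Nat.count] using this

theorem shift_add {M : ℕ} (hM : 0 < M) (he : Even M) (i : Fin 3) (l : ℕ)
    (h : ∀ k : Fin 3, i < k → (M ^ i.1 + l) / M ^ k.1 = l / M ^ k.1) :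
    shift M (M ^ i.1 + l) = simplexGen i + shift M l := by
  funext j
  have key : ∀ k : Fin 3, (((M ^ i.1 + l) / M ^ k.1 : ℕ) : ZMod 2) * simplexGen k j
      = (if k = i then simplexGen k j else 0)
        + ((l / M ^ k.1 : ℕ) : ZMod 2) * simplexGen k j := by
    intro k
    rcases lt_trichotomy k i with hk | hk | hk
    · rw [if_neg hk.ne, zero_add]
      congr 1
      obtain ⟨e, he'⟩ : ∃ e, i.1 = k.1 + (e + 1) := ⟨i.1 - k.1 - 1, by
        have : k.1 < i.1 := hk
        omega⟩
      have hM2 : (M : ZMod 2) = 0 := by
        obtain ⟨r, hr⟩ := he
        rw [hr, Nat.cast_add]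
        exact zmod2_add_self _
      rw [he', pow_add, Nat.mul_add_div (pow_pos hM _), Nat.cast_add, pow_succ, Nat.cast_mul,
        hM2, mul_zero, zero_add]
    · subst hk
      rw [if_pos rfl, show (M ^ k.1 + l) = l + M ^ k.1 by omega,
        Nat.add_div_right _ (pow_pos hM _)]
      push_cast
      ring
    · rw [if_neg hk.ne', zero_add, h k hk]
  simp only [shift, Pi.add_apply, key, Finset.sum_add_distrib, Finset.sum_ite_eq',
    Finset.mem_univ, if_true]

theorem editDist_row_le {M : ℕ} (hM : 0 < M) (he : Even M) (c : Cube) (i : Fin 3) :
    editDist (row M (c + simplexGen i)) (row M c) ≤ 4 * M ^ 2 := by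
  set m := M ^ i.1 with hm
  set R := M ^ 3 with hR
  have hm2 : m ≤ M ^ 2 := Nat.pow_le_pow_right hM (by omega)
  have hmR : m ≤ R := hm2.trans (Nat.pow_le_pow_right hM (by omega))
  have hsplit : List.range R = List.range (R - m) ++ (List.range m).map (fun l => R - m + l) := by
    conv_lhs => rw [show R = (R - m) + m by omega, List.range_add]
  have hsplit' : List.range R = List.range m ++ (List.range (R - m)).map (fun l => m + l) := by
    conv_lhs => rw [show R = m + (R - m) by omega, List.range_add]
  set A := (List.range (R - m)).map fun l => c + simplexGen i + shift M l with hA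
  set D := (List.range (R - m)).map fun l => c + shift M (m + l) with hD
  have h1 : editDist (row M (c + simplexGen i)) A ≤ m := by
    rw [row, ← hR, hsplit, List.map_append, ← hA]
    refine editDist_le ?_
    simpa using (editReach_nil
      (((List.range m).map fun l => R - m + l).map fun l => c + simplexGen i + shift M l)).context
        A []
  have h2 : editDist D (row M c) ≤ m := by
    rw [row, ← hR, hsplit', List.map_append, List.map_map]
    refine editDist_le ?_
    simpa [hD, Function.comp_def] using
      ((editReach_nil ((List.range m).map fun l => c + shift M l)).symm).context [] D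
  have hcount : ∀ k : Fin 3, i < k →
      ((List.range (R - m)).countP fun l => decide ((m + l) / M ^ k.1 ≠ l / M ^ k.1))
        ≤ M ^ 2 := by
    intro k hk
    refine ((List.range_sublist.2 (Nat.sub_le R m)).countP_le ).trans ?_
    refine (countP_carry_le (pow_pos hM _) (pow_dvd_pow M (by omega))).trans ?_
    have hk3 : k.1 ≤ 3 := by omega
    have hik : i.1 + 1 ≤ k.1 := hk
    rw [Nat.pow_div hk3 hM, hm, ← pow_add]
    exact Nat.pow_le_pow_right hM (by omega)
  have h3 : editDist A D ≤ 2 * M ^ 2 := by
    refine (editDist_map_map_le _ _ _).trans ?_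
    let bad : Fin 3 → ℕ → Bool := fun k l =>
      decide (i < k ∧ (m + l) / M ^ k.1 ≠ l / M ^ k.1)
    refine (List.countP_mono_left (q := fun l => bad 1 l || bad 2 l) fun l _ hl => ?_).trans ?_
    · simp only [decide_eq_true_eq] at hl
      by_contra hc
      apply hl
      have hk : ∀ k : Fin 3, i < k → (m + l) / M ^ k.1 = l / M ^ k.1 := by
        intro k hik
        by_contra hne
        apply hc
        fin_cases k
        · exact absurd hik (Fin.not_lt_zero i)
        · simp only [bad, Bool.or_eq_true, decide_eq_true_eq]
          exact Or.inl ⟨hik, hne⟩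
        · simp only [bad, Bool.or_eq_true, decide_eq_true_eq]
          exact Or.inr ⟨hik, hne⟩
      rw [shift_add hM he i l hk, add_assoc]
    · have hb : ∀ k, (List.range (R - m)).countP (bad k) ≤ M ^ 2 := by
        intro k
        by_cases hk : i < k
        · simpa [bad, hk] using hcount k hk
        · simp [bad, hk]
      have hor : ∀ L : List ℕ, L.countP (fun l => bad 1 l || bad 2 l) ≤
          L.countP (bad 1) + L.countP (bad 2) := by
        intro L
        induction L with
        | nil => simp
        | cons a L ih =>
          simp only [List.countP_cons]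
          cases bad 1 a <;> cases bad 2 a <;> simp <;> omega
      have := hor (List.range (R - m))
      have := hb 1
      have := hb 2
      omega
  have := editDist_triangle (row M (c + simplexGen i)) A (row M c)
  have := editDist_triangle A D (row M c)
  omega

end Vale.Agent.P238
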