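import Mathlib.Analysis.Normed.Lp.lpSpace

/-! Edit distance on words and the bi-Lipschitz distortion of edit distance into `ℓ₁`. -/

namespace Vale.Agent.P238

/-- One single-symbol insertion, deletion or substitution. -/
inductive EditStep {α : Type*} : List α → List α → Prop
  | ins (u v : List α) (a : α) : EditStep (u ++ v) (u ++ a :: v)
  | del (u v : List α) (a : α) : EditStep (u ++ a :: v) (u ++ v)
  | sub (u v : List α) (a b : α) : EditStep (u ++ a :: v) (u ++ b :: v)

/-- `EditReach k x y`: `k` single-symbol operations transform `x` into `y`. -/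
def EditReach {α : Type*} : ℕ → List α → List α → Prop
  | 0, x, y => x = y
  | k + 1, x, y => ∃ z, EditStep x z ∧ EditReach k z y

/-- Edit distance: the least number of single-symbol operations transforming `x` into `y`. -/
noncomputable def editDist {α : Type*} (x y : List α) : ℕ :=
  sInf {k | EditReach k x y}

/-- The space `ℓ₁` of absolutely summable real sequences with the norm `∑ |u i|`. -/
abbrev EllOne : Type := lp (fun _ : ℕ => ℝ) 1

/-- The edit distance of two binary words of length `n`, as a real number. -/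
noncomputable def wordDist {n : ℕ} (x y : Fin n → Bool) : ℝ :=
  (editDist (List.ofFn x) (List.ofFn y) : ℝ)

/-- `max_{x ≠ y} ‖f x - f y‖₁ / ED(x,y)`. -/
noncomputable def expansion {n : ℕ} (f : (Fin n → Bool) → EllOne) : ℝ :=
  ⨆ p : {p : (Fin n → Bool) × (Fin n → Bool) // p.1 ≠ p.2},
    ‖f p.1.1 - f p.1.2‖ / wordDist p.1.1 p.1.2

/-- `max_{x ≠ y} ED(x,y) / ‖f x - f y‖₁`. -/
noncomputable def contraction {n : ℕ} (f : (Fin n → Bool) → EllOne) : ℝ :=
  ⨆ p : {p : (Fin n → Bool) × (Fin n → Bool) // p.1 ≠ p.2},
    wordDist p.1.1 p.1.2 / ‖f p.1.1 - f p.1.2‖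

/-- `c₁({0,1}^n, ED)`: the least distortion of an injective map into `ℓ₁`. -/
noncomputable def editDistortion (n : ℕ) : ℝ :=
  sInf {D | ∃ f : (Fin n → Bool) → EllOne, Function.Injective f ∧ D = expansion f * contraction f}

end Vale.Agent.P238
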