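import Vale.Agent.P238.Defs
import Mathlib.Algebra.BigOperators.Group.List.Basic
import Mathlib.Tactic.Linarith
import Mathlib.Tactic.Ring

/-! Basic properties of edit distance. -/

namespace Vale.Agent.P238

variable {α β ι : Type*}

theorem EditStep.symm {x y : List α} (h : EditStep x y) : EditStep y x := by
  cases h with
  | ins u v a => exact .del u v a
  | del u v a => exact .ins u v a
  | sub u v a b => exact .sub u v b a

theorem EditStep.context {x y : List α} (p q : List α) (h : EditStep x y) :
    EditStep (p ++ x ++ q) (p ++ y ++ q) := by
  cases h with
  | ins u v a => simpa using EditStep.ins (p ++ u) (v ++ q) a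
  | del u v a => simpa using EditStep.del (p ++ u) (v ++ q) a
  | sub u v a b => simpa using EditStep.sub (p ++ u) (v ++ q) a b

theorem EditStep.map (h : α → β) {x y : List α} (hs : EditStep x y) :
    EditStep (x.map h) (y.map h) := by
  cases hs with
  | ins u v a => simpa using EditStep.ins (u.map h) (v.map h) (h a)
  | del u v a => simpa using EditStep.del (u.map h) (v.map h) (h a)
  | sub u v a b => simpa using EditStep.sub (u.map h) (v.map h) (h a) (h b)

theorem EditReach.trans {a b : ℕ} {x y z : List α} (h₁ : EditReach a x y)
    (h₂ : EditReach b y z) : EditReach (a + b) x z := by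
  induction a generalizing x with
  | zero => cases h₁; simpa using h₂
  | succ a ih =>
    obtain ⟨w, hw, hw'⟩ := h₁
    rw [Nat.add_right_comm]
    exact ⟨w, hw, ih hw'⟩

theorem EditReach.one {x y : List α} (h : EditStep x y) : EditReach 1 x y :=
  ⟨y, h, rfl⟩

theorem EditReach.symm {k : ℕ} {x y : List α} (h : EditReach k x y) : EditReach k y x := by
  induction k generalizing x with
  | zero => exact Eq.symm h
  | succ k ih =>
    obtain ⟨w, hw, hw'⟩ := h
    exact (ih hw').trans (EditReach.one hw.symm)

theorem EditReach.context {k : ℕ} {x y : List α} (p q : List α) (h : EditReach k x y) :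
    EditReach k (p ++ x ++ q) (p ++ y ++ q) := by
  induction k generalizing x with
  | zero => cases h; rfl
  | succ k ih =>
    obtain ⟨w, hw, hw'⟩ := h
    exact ⟨_, hw.context p q, ih hw'⟩

theorem EditReach.map (g : α → β) {k : ℕ} {x y : List α} (h : EditReach k x y) :
    EditReach k (x.map g) (y.map g) := by
  induction k generalizing x with
  | zero => cases h; rfl
  | succ k ih =>
    obtain ⟨w, hw, hw'⟩ := h
    exact ⟨_, hw.map g, ih hw'⟩

theorem editReach_nil (x : List α) : EditReach x.length x [] := by
  induction x with
  | nil => rfl
  | cons a t ih => exact ⟨t, by simpa using EditStep.del [] t a, ih⟩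

theorem editReach_editDist (x y : List α) : EditReach (editDist x y) x y :=
  Nat.sInf_mem (s := {k | EditReach k x y})
    ⟨_, (editReach_nil x).trans (editReach_nil y).symm⟩

theorem editDist_le {k : ℕ} {x y : List α} (h : EditReach k x y) : editDist x y ≤ k :=
  Nat.sInf_le h

@[simp] theorem editDist_self (x : List α) : editDist x x = 0 :=
  Nat.le_zero.1 (editDist_le (rfl : EditReach 0 x x))

theorem editDist_pos {x y : List α} (h : x ≠ y) : 0 < editDist x y := by
  refine Nat.pos_of_ne_zero fun h0 => h ?_
  have := editReach_editDist x y
  rw [h0] at this
  exact this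

theorem editDist_comm (x y : List α) : editDist x y = editDist y x :=
  le_antisymm (editDist_le (editReach_editDist y x).symm)
    (editDist_le (editReach_editDist x y).symm)

theorem editDist_triangle (x y z : List α) : editDist x z ≤ editDist x y + editDist y z :=
  editDist_le ((editReach_editDist x y).trans (editReach_editDist y z))

theorem editDist_map_le (g : α → β) (x y : List α) :
    editDist (x.map g) (y.map g) ≤ editDist x y :=
  editDist_le ((editReach_editDist x y).map g)

theorem editDist_append_le (x₁ x₂ y₁ y₂ : List α) :
    editDist (x₁ ++ x₂) (y₁ ++ y₂) ≤ editDist x₁ y₁ + editDist x₂ y₂ := by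
  refine (editDist_triangle _ (y₁ ++ x₂) _).trans (Nat.add_le_add ?_ ?_)
  · exact editDist_le (by simpa using (editReach_editDist x₁ y₁).context [] x₂)
  · exact editDist_le (by simpa using (editReach_editDist x₂ y₂).context y₁ [])

theorem editDist_append_right_le (x y z : List α) :
    editDist (x ++ z) (y ++ z) ≤ editDist x y := by
  simpa using editDist_append_le x z y z

theorem editDist_cons_le [DecidableEq α] (a b : α) (x y : List α) :
    editDist (a :: x) (b :: y) ≤ (if a = b then 0 else 1) + editDist x y := by
  refine (editDist_append_le [a] x [b] y).trans (Nat.add_le_add_right ?_ _)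
  split_ifs with h
  · simp [h]
  · exact editDist_le (EditReach.one (by simpa using EditStep.sub [] [] a b))

theorem editDist_le_length [DecidableEq α] : ∀ (x y : List α), x.length = y.length →
    editDist x y ≤ x.length
  | [], [], _ => by simp
  | a :: x, b :: y, h => by
    have := editDist_le_length x y (by simpa using h)
    refine (editDist_cons_le a b x y).trans ?_
    simp only [List.length_cons]
    split_ifs <;> omega

theorem editDist_flatMap_le (l : List ι) (f g : ι → List α) :
    editDist (l.flatMap f) (l.flatMap g) ≤ (l.map fun i => editDist (f i) (g i)).sum := by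
  induction l with
  | nil => simp
  | cons a t ih =>
    simp only [List.flatMap_cons, List.map_cons, List.sum_cons]
    exact (editDist_append_le _ _ _ _).trans (Nat.add_le_add_left ih _)

theorem editDist_map_map_le [DecidableEq α] (l : List ι) (f g : ι → α) :
    editDist (l.map f) (l.map g) ≤ l.countP fun i => decide (f i ≠ g i) := by
  induction l with
  | nil => simp
  | cons a t ih =>
    simp only [List.map_cons, List.countP_cons]
    refine (editDist_cons_le _ _ _ _).trans ?_
    by_cases h : f a = g a <;> simp [h] <;> simp at ih <;> omega

/-- Substituting every symbol by a block of constant length multiplies edit distance at most by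
that length. -/
theorem editDist_flatMap_block_le [DecidableEq β] (f : α → List β) {B : ℕ}
    (hf : ∀ a, (f a).length = B) (x y : List α) :
    editDist (x.flatMap f) (y.flatMap f) ≤ B * editDist x y := by
  suffices ∀ (k : ℕ) (x : List α), EditReach k x y →
      editDist (x.flatMap f) (y.flatMap f) ≤ B * k from this _ _ (editReach_editDist x y)
  intro k
  induction k with
  | zero => intro x h; cases h; simp
  | succ k ih =>
    intro x h
    obtain ⟨w, hw, hw'⟩ := h
    refine (editDist_triangle _ (w.flatMap f) _).trans ?_
    have h1 : editDist (x.flatMap f) (w.flatMap f) ≤ B := by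
      cases hw with
      | ins u v a =>
        simp only [List.flatMap_append, List.flatMap_cons]
        have hb : editDist ([] : List β) (f a) ≤ B := editDist_le (hf a ▸ (editReach_nil (f a)).symm)
        calc editDist (u.flatMap f ++ v.flatMap f) (u.flatMap f ++ (f a ++ v.flatMap f))
            ≤ editDist (u.flatMap f) (u.flatMap f)
              + editDist ([] ++ v.flatMap f) (f a ++ v.flatMap f) := editDist_append_le _ _ _ _
          _ ≤ B := by
              simpa using (editDist_append_le [] (v.flatMap f) (f a) (v.flatMap f)).trans
                (by simpa using hb)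
      | del u v a =>
        simp only [List.flatMap_append, List.flatMap_cons]
        have hb : editDist (f a) ([] : List β) ≤ B := editDist_le (hf a ▸ editReach_nil (f a))
        calc editDist (u.flatMap f ++ (f a ++ v.flatMap f)) (u.flatMap f ++ v.flatMap f)
            ≤ editDist (u.flatMap f) (u.flatMap f)
              + editDist (f a ++ v.flatMap f) ([] ++ v.flatMap f) := editDist_append_le _ _ _ _
          _ ≤ B := by
              simpa using (editDist_append_le (f a) (v.flatMap f) [] (v.flatMap f)).trans
                (by simpa using hb)
      | sub u v a b =>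
        simp only [List.flatMap_append, List.flatMap_cons]
        have hb : editDist (f a) (f b) ≤ B := hf a ▸ editDist_le_length _ _ (by rw [hf a, hf b])
        calc editDist (u.flatMap f ++ (f a ++ v.flatMap f)) (u.flatMap f ++ (f b ++ v.flatMap f))
            ≤ editDist (u.flatMap f) (u.flatMap f)
              + editDist (f a ++ v.flatMap f) (f b ++ v.flatMap f) := editDist_append_le _ _ _ _
          _ ≤ B := by
              simpa using (editDist_append_le (f a) (v.flatMap f) (f b) (v.flatMap f)).trans
                (by simpa using hb)
    have := Nat.add_le_add h1 (ih w hw')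
    rw [Nat.mul_succ]
    omega

end Vale.Agent.P238
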