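import Vale.Agent.P238.Edit
import Mathlib.Data.List.OfFn

/-! A comma-free binary code, through which edit distance can only shrink to the number of
symbols outside a common subsequence. -/

namespace Vale.Agent.P238

variable {σ : Type*} {q : ℕ}

/-- The `i`-th bit of the code word of a block of data bits `d`. -/
def codeBit (d : Fin q → Bool) (i : ℕ) : Bool :=
  if i < 2 then true
  else if h : i % 2 = 1 ∧ (i - 3) / 2 < q then d ⟨(i - 3) / 2, h.2⟩ else false

/-- The code word of a symbol. -/
def code (φ : σ → Fin q → Bool) (a : σ) : List Bool :=
  List.ofFn fun i : Fin (2 * q + 3) => codeBit (φ a) i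

@[simp] theorem length_code (φ : σ → Fin q → Bool) (a : σ) :
    (code φ a).length = 2 * q + 3 := by
  simp [code]

theorem getElem?_code (φ : σ → Fin q → Bool) (a : σ) {i : ℕ} (h : i < 2 * q + 3) :
    (code φ a)[i]? = some (codeBit (φ a) i) := by
  unfold code
  rw [List.getElem?_ofFn, dif_pos h]

theorem code_injective {φ : σ → Fin q → Bool} (hφ : Function.Injective φ) :
    Function.Injective (code φ) := by
  intro a b h
  apply hφ
  funext i
  have hi : 2 * i.1 + 3 < 2 * q + 3 := by omega
  have := congrArg (fun l : List Bool => l[2 * i.1 + 3]?) h
  simp only [getElem?_code _ _ hi, Option.some.injEq] at this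
  have h1 : ¬ 2 * i.1 + 3 < 2 := by omega
  have h2 : (2 * i.1 + 3) % 2 = 1 ∧ (2 * i.1 + 3 - 3) / 2 < q := by omega
  simpa [codeBit, h1, h2] using this

theorem codeBit_last (d : Fin q → Bool) : codeBit d (2 * q + 2) = false := by
  unfold codeBit
  rw [if_neg (by omega), dif_neg (by omega)]

theorem codeBit_no_two (d : Fin q → Bool) {p : ℕ} (hp : 0 < p) :
    codeBit d p = false ∨ codeBit d (p + 1) = false := by
  rcases Nat.even_or_odd' p with ⟨k, hk | hk⟩
  · left; unfold codeBit; rw [if_neg (by omega), dif_neg (by omega)]
  · right; unfold codeBit; rw [if_neg (by omega), dif_neg (by omega)]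

/-- A code word occurs in a concatenation of code words only at the boundaries. -/
theorem code_boundary (φ : σ → Fin q → Bool) (a b : σ) (g r rest : List Bool)
    (h : code φ b ++ rest = g ++ (code φ a ++ r)) : g = [] ∨ 2 * q + 3 ≤ g.length := by
  by_contra hc
  push_neg at hc
  obtain ⟨hg, hlt⟩ := hc
  have hp : 0 < g.length := List.length_pos_iff.2 hg
  have e0 : (code φ b ++ rest)[g.length]? = some true := by
    rw [h, List.getElem?_append_right le_rfl, Nat.sub_self,
      List.getElem?_append_left (by simp), getElem?_code _ _ (by omega)]
    simp [codeBit]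
  have e1 : (code φ b ++ rest)[g.length + 1]? = some true := by
    rw [h, List.getElem?_append_right (by omega), Nat.add_sub_cancel_left,
      List.getElem?_append_left (by simp), getElem?_code _ _ (by omega)]
    simp [codeBit]
  rw [List.getElem?_append_left (by simpa using hlt), getElem?_code _ _ hlt,
    Option.some.injEq] at e0
  rcases Nat.lt_or_ge (g.length + 1) (2 * q + 3) with h1 | h1
  · rw [List.getElem?_append_left (by simpa using h1), getElem?_code _ _ h1,
      Option.some.injEq] at e1
    rcases codeBit_no_two (φ b) hp with h2 | h2 <;> simp_all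
  · have : g.length = 2 * q + 2 := by omega
    rw [this, codeBit_last] at e0
    exact Bool.false_ne_true e0

/-- `Occ φ z w`: the code words of `z` occur in `w` disjointly and in order. -/
def Occ (φ : σ → Fin q → Bool) : List σ → List Bool → Prop
  | [], _ => True
  | a :: z, w => ∃ g r, w = g ++ (code φ a ++ r) ∧ Occ φ z r

theorem Occ.prepend {φ : σ → Fin q → Bool} {z : List σ} {w : List Bool} (h : Occ φ z w)
    (p : List Bool) : Occ φ z (p ++ w) := by
  cases z with
  | nil => trivial
  | cons a z =>
    obtain ⟨g, r, rfl, hr⟩ := h
    exact ⟨p ++ g, r, by simp, hr⟩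

theorem occ_flatMap (φ : σ → Fin q → Bool) (x : List σ) (pad : List Bool) :
    Occ φ x (x.flatMap (code φ) ++ pad) := by
  induction x with
  | nil => trivial
  | cons a t ih => exact ⟨[], t.flatMap (code φ) ++ pad, by simp, ih⟩

theorem EditStep.split {α : Type*} {w w' : List α} (h : EditStep w w') :
    ∃ u p v p', w = u ++ (p ++ v) ∧ w' = u ++ (p' ++ v) ∧ p.length ≤ 1 := by
  cases h with
  | ins u v a => exact ⟨u, [], v, [a], by simp, by simp, by simp⟩
  | del u v a => exact ⟨u, [a], v, [], by simp, by simp, by simp⟩
  | sub u v a b => exact ⟨u, [a], v, [b], by simp, by simp, by simp⟩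

theorem Occ.of_split {φ : σ → Fin q → Bool} : ∀ (z : List σ) (u p v p' : List Bool),
    p.length ≤ 1 → Occ φ z (u ++ (p ++ v)) →
    ∃ z', List.Sublist z' z ∧ z.length ≤ z'.length + 1 ∧ Occ φ z' (u ++ (p' ++ v))
  | [], u, p, v, p', _, _ => ⟨[], List.Sublist.refl _, by simp, trivial⟩
  | a :: z, u, p, v, p', hp, h => by
    obtain ⟨g, r, hw, hr⟩ := h
    set E := code φ a with hE
    have hlen := congrArg List.length hw
    simp only [List.length_append] at hlen
    rcases Nat.lt_or_ge u.length (g.length + E.length) with hu | hu
    · rcases Nat.lt_or_ge g.length (u.length + p.length) with hg | hg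
      · -- the code word of `a` is damaged
        have hrv : r = v.drop (g.length + E.length - (u.length + p.length)) := by
          have := congrArg (List.drop (g.length + E.length)) hw
          rw [← List.append_assoc u p v, ← List.append_assoc g E r] at this
          rw [List.drop_append, List.drop_of_length_le (by simp; omega), List.nil_append,
            List.drop_left' (l₁ := g ++ E) (by simp), List.length_append] at this
          exact this.symm
        refine ⟨z, List.sublist_cons_self a z, by simp, ?_⟩
        obtain ⟨v', hv'⟩ : ∃ v', v = v' ++ r :=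
          ⟨v.take (g.length + E.length - (u.length + p.length)), by
            rw [hrv, List.take_append_drop]⟩
        have := hr.prepend (u ++ (p' ++ v'))
        rw [hv']
        simpa using this
      · -- the edit happens before the code word of `a`
        obtain ⟨g', hg'⟩ : ∃ g', g = u ++ p ++ g' := by
          refine ⟨g.drop (u.length + p.length), ?_⟩
          have := congrArg (List.take (u.length + p.length)) hw
          rw [← List.append_assoc, List.take_left' (by simp),
            List.take_append_of_le_length hg] at this
          rw [this, List.take_append_drop]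
        have hv : v = g' ++ (E ++ r) := by
          rw [hg'] at hw
          simp only [List.append_assoc] at hw
          exact List.append_cancel_left (List.append_cancel_left hw)
        exact ⟨a :: z, List.Sublist.refl _, by simp, u ++ p' ++ g', r, by simp [hv, hE], hr⟩
    · -- the edit happens after the code word of `a`
      obtain ⟨u', hu'⟩ : ∃ u', u = g ++ E ++ u' := by
        refine ⟨u.drop (g.length + E.length), ?_⟩
        have := congrArg (List.take (g.length + E.length)) hw
        rw [← List.append_assoc g E r, List.take_left' (l₁ := g ++ E) (by simp),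
          List.take_append_of_le_length hu] at this
        conv_lhs => rw [← List.take_append_drop (g.length + E.length) u, this]
      have hr' : r = u' ++ (p ++ v) := by
        rw [hu'] at hw
        simp only [List.append_assoc] at hw
        exact (List.append_cancel_left (List.append_cancel_left hw)).symm
      rw [hr'] at hr
      obtain ⟨z', hz, hzl, hz'⟩ := Occ.of_split z u' p v p' hp hr
      exact ⟨a :: z', hz.cons_cons a, by simp; omega, g, u' ++ (p' ++ v),
        by simp [hu', hE], hz'⟩

theorem Occ.of_reach {φ : σ → Fin q → Bool} (k : ℕ) : ∀ (z : List σ) (w w' : List Bool),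
    EditReach k w w' → Occ φ z w →
    ∃ z', List.Sublist z' z ∧ z.length ≤ z'.length + k ∧ Occ φ z' w' := by
  induction k with
  | zero => intro z w w' h ho; cases h; exact ⟨z, List.Sublist.refl _, le_rfl, ho⟩
  | succ k ih =>
    rintro z w w' ⟨m, hm, hm'⟩ ho
    obtain ⟨u, p, v, p', rfl, rfl, hp⟩ := hm.split
    obtain ⟨z₁, h1, h2, h3⟩ := Occ.of_split z u p v p' hp ho
    obtain ⟨z₂, g1, g2, g3⟩ := ih z₁ _ w' hm' h3
    exact ⟨z₂, g1.trans h1, by omega, g3⟩

theorem Occ.sublist {φ : σ → Fin q → Bool} (hφ : Function.Injective φ) (m : ℕ) :
    ∀ (y z : List σ), Occ φ z (y.flatMap (code φ) ++ List.replicate m false) →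
      List.Sublist z y
  | _, [], _ => List.nil_sublist _
  | [], a :: z, h => by
    obtain ⟨g, r, hw, _⟩ := h
    have hmem : true ∈ List.replicate m false := by
      simp only [List.flatMap_nil, List.nil_append] at hw
      rw [hw]
      refine List.mem_append_right _ (List.mem_append_left _ ?_)
      exact List.mem_iff_getElem?.2 ⟨0, by rw [getElem?_code _ _ (by omega)]; simp [codeBit]⟩
    simp at hmem
  | b :: y, a :: z, h => by
    obtain ⟨g, r, hw, hr⟩ := h
    simp only [List.flatMap_cons, List.append_assoc] at hw
    rcases code_boundary φ a b g r _ hw with hg | hg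
    · subst hg
      rw [List.nil_append] at hw
      obtain ⟨h1, h2⟩ := List.append_inj hw (by simp)
      rw [code_injective hφ h1]
      rw [← h2] at hr
      exact (Occ.sublist hφ m y z hr).cons_cons a
    · obtain ⟨g', hg'⟩ : ∃ g', g = code φ b ++ g' := by
        refine ⟨g.drop (2 * q + 3), ?_⟩
        have := congrArg (List.take (2 * q + 3)) hw
        rw [List.take_left' (by simp), List.take_append_of_le_length hg] at this
        rw [this, List.take_append_drop]
      have : Occ φ (a :: z) (y.flatMap (code φ) ++ List.replicate m false) := by
        refine ⟨g', r, ?_, hr⟩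
        rw [hg', List.append_assoc] at hw
        exact List.append_cancel_left hw
      exact (Occ.sublist hφ m y (a :: z) this).cons b

/-- If the encodings of `x` and `y` are at edit distance `e`, then `x` and `y` have a common
subsequence of length at least `x.length - e`. -/
theorem exists_common_sublist {φ : σ → Fin q → Bool} (hφ : Function.Injective φ) (m : ℕ)
    (x y : List σ) :
    ∃ z, List.Sublist z x ∧ List.Sublist z y ∧ x.length ≤ z.length +
      editDist (x.flatMap (code φ) ++ List.replicate m false)
        (y.flatMap (code φ) ++ List.replicate m false) := by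
  obtain ⟨z, h1, h2, h3⟩ := Occ.of_reach _ x _ _ (editReach_editDist _ _) (occ_flatMap φ x _)
  exact ⟨z, h1, Occ.sublist hφ m y z h3, h2⟩

end Vale.Agent.P238
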