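import Vale.Agent.P238.Construct

/-!
A map into `ℓ₁` that is Lipschitz for edit distance cannot separate, on average, a configuration
from its complement by more than a fraction `β` of the word length, `β` shrinking by a factor
three per level.
-/

namespace Vale.Agent.P238

/-- Edit distance between configurations, summed over the two states. -/
noncomputable def pairDist (M : ℕ) {J : ℕ} (v v' : Cfg J) : ℕ :=
  editDist (word M J v) (word M J v') + editDist (word M J (v + 1)) (word M J (v' + 1))

/-- `Bound M J β`: Lipschitz maps separate a configuration from its complement by at most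
`β · wlen` on average. -/
def Bound (M J : ℕ) (β : ℝ) : Prop :=
  ∀ (F : Cfg J → EllOne) (L : ℝ), 0 ≤ L → (∀ v v', ‖F v - F v'‖ ≤ L * pairDist M v v') →
    ∑ v, ‖F v - F (v + 1)‖ ≤ Fintype.card (Cfg J) * (L * (β * wlen M J))

theorem bound_zero (M : ℕ) : Bound M 0 2 := by
  intro F L hL h
  have h1 : ∀ v, ‖F v - F (v + 1)‖ ≤ L * (2 * wlen M 0) := by
    intro v
    refine (h v (v + 1)).trans (mul_le_mul_of_nonneg_left ?_ hL)
    have a := editDist_le_length (word M 0 v) (word M 0 (v + 1)) (by simp [length_word])
    have b := editDist_le_length (word M 0 (v + 1)) (word M 0 (v + 1 + 1)) (by simp [length_word])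
    rw [length_word] at a b
    have : pairDist M v (v + 1) ≤ 2 * wlen M 0 := by unfold pairDist; omega
    exact_mod_cast this
  refine (Finset.sum_le_sum fun v _ => h1 v).trans ?_
  simp

theorem pairDist_shift_le {M : ℕ} (hM : 0 < M) (he : Even M) {J : ℕ} (v : Cfg (J + 1))
    (i : Fin 3) : pairDist M v (v + lift (simplexGen i)) ≤ 56 * M ^ 2 * wlen M J := by
  have key : ∀ c : Cube, editDist ((row M c).flatMap (window M v))
      ((row M (c + simplexGen i)).flatMap (window M v)) ≤ 7 * wlen M J * (4 * M ^ 2) := by
    intro c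
    refine (editDist_flatMap_block_le _ (length_window M v) _ _).trans
      (Nat.mul_le_mul_left _ ?_)
    rw [editDist_comm]
    exact editDist_row_le hM he c i
  have a := key 0
  have b := key 1
  rw [← word_lift, ← word_lift] at a b
  simp only [zero_add] at a
  have e0 : v + lift (0 : Cube) = v := by
    funext p; simp [lift]
  have e1 : v + lift (simplexGen i) + 1 = v + lift (1 + simplexGen i) := by
    rw [← lift_one, lift_add]; abel
  rw [e0] at a
  rw [lift_one] at b
  unfold pairDist
  rw [e1]
  have : 56 * M ^ 2 * wlen M J = 2 * (7 * wlen M J * (4 * M ^ 2)) := by ring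
  omega

theorem editDist_window_le (M : ℕ) {J : ℕ} (j : Fin 7) (v : Cfg (J + 1)) (x y : Cfg J)
    (c : Cube) :
    editDist (window M (v + single j x) c) (window M (v + single j y) c) ≤
      editDist (word M J (child j v + x + cst (c j))) (word M J (child j v + y + cst (c j))) := by
  refine (editDist_flatMap_le _ _ _).trans ?_
  rw [← List.ofFn_eq_map, List.sum_ofFn]
  rw [Finset.sum_eq_single j]
  · simp only [child_add, child_single, if_true]
    exact editDist_map_le _ _ _
  · intro k _ hk
    simp [child_add, child_single, hk]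
  · simp

theorem pairDist_single_le (M : ℕ) {J : ℕ} (j : Fin 7) (v : Cfg (J + 1)) (x y : Cfg J) :
    pairDist M (v + single j x) (v + single j y) ≤
      M ^ 3 * pairDist M (child j v + x) (child j v + y) := by
  unfold pairDist
  rw [word_add_one, word_add_one, word_succ, word_succ]
  simp only [row, List.flatMap_map]
  refine (Nat.add_le_add (editDist_flatMap_le _ _ _) (editDist_flatMap_le _ _ _)).trans ?_
  rw [← List.sum_map_add]
  refine (List.sum_le_card_nsmul _
    (editDist (word M J (child j v + x)) (word M J (child j v + y))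
      + editDist (word M J (child j v + x + 1)) (word M J (child j v + y + 1))) ?_).trans
    (by simp)
  intro n hn
  obtain ⟨l, -, rfl⟩ := List.mem_map.1 hn
  refine (Nat.add_le_add (editDist_window_le M j v x y _) (editDist_window_le M j v x y _)).trans ?_
  simp only [Pi.add_apply, Pi.zero_apply, zero_add, Pi.one_apply]
  rcases (show ∀ c : ZMod 2, c = 0 ∨ c = 1 by decide) (shift M l j) with h | h
  · simp only [h, add_zero, cst_zero, cst_one]
    exact le_rfl
  · simp only [h, zmod2_add_self, cst_zero, cst_one, add_zero]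
    omega

theorem bound_child {M J : ℕ} {β : ℝ} (hB : Bound M J β) (j : Fin 7)
    (F : Cfg (J + 1) → EllOne) (L : ℝ) (hL : 0 ≤ L)
    (hF : ∀ v v', ‖F v - F v'‖ ≤ L * pairDist M v v') :
    ∑ v, ‖F v - F (v + single j 1)‖ ≤
      Fintype.card (Cfg (J + 1)) * (L * ((M ^ 3 : ℕ) : ℝ) * (β * wlen M J)) := by
  set Φ := fun v => ‖F v - F (v + single j 1)‖ with hΦ
  have key : ∀ v, ∑ u, Φ (v + single j u) ≤
      Fintype.card (Cfg J) * (L * ((M ^ 3 : ℕ) : ℝ) * (β * wlen M J)) := by
    intro v
    have := hB (fun u => F (v + single j (u + child j v))) (L * ((M ^ 3 : ℕ) : ℝ))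
      (by positivity) fun u u' => ?_
    · refine le_of_eq_of_le ?_ this
      refine Fintype.sum_equiv (Equiv.addRight (child j v)) _ _ fun u => ?_
      simp only [hΦ, Equiv.coe_addRight]
      rw [show u + child j v + child j v = u by rw [add_assoc, cfg_add_self, add_zero],
        show u + child j v + 1 + child j v = u + 1 by
          rw [add_right_comm _ (1 : Cfg J), add_assoc u, cfg_add_self, add_zero],
        single_add, ← add_assoc]
    · refine (hF _ _).trans ?_
      rw [mul_assoc]
      refine mul_le_mul_of_nonneg_left ?_ hL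
      have := pairDist_single_le M j v (u + child j v) (u' + child j v)
      rw [show child j v + (u + child j v) = u by
          rw [← add_assoc, add_right_comm, cfg_add_self, zero_add],
        show child j v + (u' + child j v) = u' by
          rw [← add_assoc, add_right_comm, cfg_add_self, zero_add]] at this
      exact_mod_cast this
  have havg : ∑ v, ∑ u, Φ (v + single j u) = (Fintype.card (Cfg J) : ℝ) * ∑ v, Φ v := by
    rw [Finset.sum_comm]
    have : ∀ u, ∑ v, Φ (v + single j u) = ∑ v, Φ v := fun u =>
      Fintype.sum_equiv (Equiv.addRight (single j u)) _ _ fun v => rfl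
    simp [this]
  have := Finset.sum_le_sum (s := (Finset.univ : Finset (Cfg (J + 1)))) fun v _ => key v
  rw [havg, Finset.sum_const, Finset.card_univ, nsmul_eq_mul, mul_left_comm] at this
  exact le_of_mul_le_mul_left this (by exact_mod_cast Fintype.card_pos)

theorem bound_succ {M J : ℕ} {β : ℝ} (hM : 0 < M) (he : Even M) (hB : Bound M J β) :
    Bound M (J + 1) (β / 3 + 24 / M) := by
  intro F L hL hF
  have h := cube_norm_le (V := Cfg (J + 1)) lift lift_add F
  rw [lift_one] at h
  have h7 : ∀ j : Fin 7, ∑ v, ‖F v - F (v + lift (Pi.single j 1))‖ ≤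
      Fintype.card (Cfg (J + 1)) * (L * ((M ^ 3 : ℕ) : ℝ) * (β * wlen M J)) := fun j => by
    rw [lift_single]
    exact bound_child hB j F L hL hF
  have h3 : ∀ i : Fin 3, ∑ v, ‖F v - F (v + lift (simplexGen i))‖ ≤
      Fintype.card (Cfg (J + 1)) * (L * ((56 * M ^ 2 * wlen M J : ℕ) : ℝ)) := by
    intro i
    refine (Finset.sum_le_sum fun v _ => (hF v _).trans
      (mul_le_mul_of_nonneg_left (Nat.cast_le.2 (pairDist_shift_le hM he v i)) hL)).trans ?_
    simp
  refine h.trans ((add_le_add
    (mul_le_mul_of_nonneg_left (Finset.sum_le_sum fun j _ => h7 j) (by norm_num))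
    (Finset.sum_le_sum fun i _ => h3 i)).trans (le_of_eq ?_))
  have hw : (wlen M (J + 1) : ℝ) = 7 * (M : ℝ) ^ 3 * wlen M J := by
    simp [wlen, pow_succ]
    ring
  have hM' : (M : ℝ) ≠ 0 := by exact_mod_cast hM.ne'
  simp only [Finset.sum_const, Finset.card_univ, Fintype.card_fin, nsmul_eq_mul, hw]
  push_cast
  field_simp
  ring

theorem bound_iterate {M : ℕ} (hM : 0 < M) (he : Even M) :
    ∀ J : ℕ, (24 : ℝ) * 3 ^ J ≤ M → ∃ β : ℝ, β * 3 ^ J ≤ J + 2 ∧ Bound M J β
  | 0, _ => ⟨2, by norm_num, bound_zero M⟩
  | J + 1, h => by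
    have hJ : (24 : ℝ) * 3 ^ J ≤ M := le_trans (by gcongr <;> norm_num) h
    obtain ⟨β, hβ, hB⟩ := bound_iterate hM he J hJ
    refine ⟨_, ?_, bound_succ hM he hB⟩
    have hM' : (0 : ℝ) < M := by exact_mod_cast hM
    have h1 : 24 / (M : ℝ) * 3 ^ (J + 1) ≤ 1 := by
      rw [div_mul_eq_mul_div, div_le_one hM']
      exact h
    push_cast
    rw [add_mul, pow_succ, show β / 3 * (3 ^ J * 3) = β * 3 ^ J by ring]
    rw [pow_succ] at h1
    linarith

end Vale.Agent.P238
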