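import Vale.Agent.P238.Construct

/-!
The word of a configuration and the word of its complement have no long common subsequence.
-/

namespace Vale.Agent.P238

/-- The child to which a symbol belongs. -/
def tagOf {J : ℕ} (s : Sym (J + 1)) : Fin 7 := s.1 0

theorem tagOf_tag {J : ℕ} (j : Fin 7) (s : Sym J) : tagOf (tag j s) = j := rfl

theorem tag_injective {J : ℕ} (j : Fin 7) : Function.Injective (tag (J := J) j) := by
  intro a b h
  simp only [tag, Prod.mk.injEq, Fin.cons_inj, true_and] at h
  exact Prod.ext h.1 h.2

theorem window_sorted (M : ℕ) {J : ℕ} (v : Cfg (J + 1)) (c : Cube) :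
    (window M v c).Pairwise fun a b => tagOf a ≤ tagOf b := by
  rw [window, List.pairwise_flatMap]
  constructor
  · intro j _
    rw [List.pairwise_map]
    exact List.pairwise_of_forall fun _ _ => le_rfl
  · refine (List.pairwise_lt_finRange 7).imp ?_
    intro i k hik a ha b hb
    obtain ⟨a', -, rfl⟩ := List.mem_map.1 ha
    obtain ⟨b', -, rfl⟩ := List.mem_map.1 hb
    rw [tagOf_tag, tagOf_tag]
    exact hik.le

theorem countP_window (M : ℕ) {J : ℕ} (v : Cfg (J + 1)) (c : Cube) (P : Fin 7 → Bool) :
    (window M v c).countP (fun s => P (tagOf s)) =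
      ∑ j, if P j then wlen M J else 0 := by
  rw [window, List.countP_flatMap, ← List.ofFn_eq_map, List.sum_ofFn]
  refine Finset.sum_congr rfl fun j _ => ?_
  simp only [Function.comp_def, List.countP_map, tagOf_tag]
  cases h : P j <;> simp [length_word]

/-- Either a common subsequence of a window and of a factor of a list of windows lies in a single
window, or the factor is much longer. -/
theorem single_or_long {β : Type*} (tg : β → Fin 7) (w : ℕ) :
    ∀ (L : List (List β)) (z S : List β),
      (∀ W ∈ L, W.Pairwise fun a b => tg a ≤ tg b) →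
      (∀ W ∈ L, ∀ P : Fin 7 → Bool, W.countP (fun s => P (tg s)) = ∑ j, if P j then w else 0) →
      z.Pairwise (fun a b => tg a ≤ tg b) → List.Sublist z S → S <:+: L.flatten →
      (z = [] ∨ ∃ W ∈ L, List.Sublist z W) ∨ z.length + 6 * w ≤ S.length
  | [], z, S, _, _, _, hz, hS => by
    left; left
    simp only [List.flatten_nil, List.infix_nil] at hS
    subst hS
    exact List.eq_nil_of_sublist_nil hz
  | W :: L, z, S, hs, hc, hp, hz, hS => by
    have hs' : ∀ V ∈ L, V.Pairwise fun a b => tg a ≤ tg b := fun V h =>
      hs V (List.mem_cons_of_mem _ h)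
    have hc' : ∀ V ∈ L, ∀ P : Fin 7 → Bool,
        V.countP (fun s => P (tg s)) = ∑ j, if P j then w else 0 := fun V h =>
      hc V (List.mem_cons_of_mem _ h)
    have lift' : ∀ z' S' : List β, z'.length = z.length → S'.length ≤ S.length → z' = z →
        ((z' = [] ∨ ∃ V ∈ L, List.Sublist z' V) ∨ z'.length + 6 * w ≤ S'.length) →
        (z = [] ∨ ∃ V ∈ W :: L, List.Sublist z V) ∨ z.length + 6 * w ≤ S.length := by
      rintro z' S' - hl rfl ((h | ⟨V, hV, h⟩) | h)
      · exact Or.inl (Or.inl h)
      · exact Or.inl (Or.inr ⟨V, List.mem_cons_of_mem _ hV, h⟩)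
      · exact Or.inr (h.trans hl)
    obtain ⟨s, t, hst⟩ := hS
    simp only [List.flatten_cons, List.append_assoc] at hst
    rcases List.append_eq_append_iff.1 hst with ⟨as, hW, hSt⟩ | ⟨bs, hs1, hflat⟩
    · -- the factor starts inside `W`
      rcases List.append_eq_append_iff.1 hSt with ⟨cs, hcs, -⟩ | ⟨Q, hQ, hL⟩
      · left; right
        refine ⟨W, List.mem_cons_self, hz.trans ?_⟩
        rw [hW, hcs]
        exact (List.sublist_append_left S cs).trans (List.sublist_append_right s _)
      · subst hQ
        obtain ⟨z₁, z₂, rfl, h1, h2⟩ := List.sublist_append_iff.1 hz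
        rcases z₁.eq_nil_or_concat with rfl | ⟨z₁', a, rfl⟩
        · have hp2 : z₂.Pairwise fun a b => tg a ≤ tg b := by simpa using hp
          exact lift' z₂ Q rfl (by simp) rfl
            (single_or_long tg w L z₂ Q hs' hc' hp2 h2 ⟨[], t, by simp [hL]⟩)
        rcases z₂ with _ | ⟨b, z₂'⟩
        · left; right
          refine ⟨W, List.mem_cons_self, ?_⟩
          rw [List.append_nil, hW]
          exact h1.trans (List.sublist_append_right s as)
        right
        rw [List.concat_eq_append] at *
        obtain ⟨p1, p2, p12⟩ := List.pairwise_append.1 hp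
        have hab : tg a ≤ tg b := p12 a (by simp) b (by simp)
        have hb_mem : b ∈ Q := h2.subset List.mem_cons_self
        have ha_mem : a ∈ as := h1.subset (by simp)
        -- symbols of child above `tg a` in `as`
        have hhi : (z₁' ++ [a]).countP (fun s => decide (tg a < tg s)) = 0 := by
          rw [List.countP_eq_zero]
          intro x hx
          simp only [decide_eq_true_eq, not_lt]
          rcases List.mem_append.1 hx with hx | hx
          · exact (List.pairwise_append.1 p1).2.2 x hx a (by simp)
          · simp at hx; rw [hx]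
        have hWas : as.countP (fun s => decide (tg a < tg s))
            = W.countP (fun s => decide (tg a < tg s)) := by
          rw [hW, List.countP_append]
          have : s.countP (fun x => decide (tg a < tg x)) = 0 := by
            rw [List.countP_eq_zero]
            intro x hx
            simp only [decide_eq_true_eq, not_lt]
            have := hs W List.mem_cons_self
            rw [hW] at this
            exact (List.pairwise_append.1 this).2.2 x hx a ha_mem
          omega
        have hlo : (b :: z₂').countP (fun s => decide (tg s < tg a)) = 0 := by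
          rw [List.countP_eq_zero]
          intro x hx
          simp only [decide_eq_true_eq, not_lt]
          exact p12 a (by simp) x hx
        obtain ⟨W', L', rfl⟩ : ∃ W' L', L = W' :: L' := by
          rcases L with _ | ⟨W', L'⟩
          · simp only [List.flatten_nil] at hL
            simp [(List.append_eq_nil_iff.1 hL.symm).1] at hb_mem
          · exact ⟨W', L', rfl⟩
        have hQW' : W'.countP (fun s => decide (tg s < tg a))
            ≤ Q.countP (fun s => decide (tg s < tg a)) := by
          simp only [List.flatten_cons] at hL
          rcases List.append_eq_append_iff.1 hL with ⟨ds, hds, -⟩ | ⟨es, hes, -⟩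
          · rw [hds, List.countP_append]; omega
          · rw [hes, List.countP_append]
            have : es.countP (fun x => decide (tg x < tg a)) = 0 := by
              rw [List.countP_eq_zero]
              intro x hx
              simp only [decide_eq_true_eq, not_lt]
              have := hs W' (List.mem_cons_of_mem _ List.mem_cons_self)
              rw [hes] at this
              exact hab.trans ((List.pairwise_append.1 this).2.2 b hb_mem x hx)
            omega
        have k1 := hc W List.mem_cons_self (fun k => decide (tg a < k))
        have k2 := hc W' (List.mem_cons_of_mem _ List.mem_cons_self) (fun k => decide (k < tg a))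
        have k3 : (∑ k : Fin 7, if decide (tg a < k) then w else 0)
            + (∑ k : Fin 7, if decide (k < tg a) then w else 0) = 6 * w := by
          generalize tg a = k
          fin_cases k <;> simp [Fin.sum_univ_seven] <;> ring
        have e1 := h1.countP_le (p := fun s => !decide (tg a < tg s))
        have e2 := h2.countP_le (p := fun s => !decide (tg s < tg a))
        have f1 := List.length_eq_countP_add_countP (fun s => decide (tg a < tg s))
          (l := z₁' ++ [a])
        have f2 := List.length_eq_countP_add_countP (fun s => decide (tg a < tg s)) (l := as)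
        have f3 := List.length_eq_countP_add_countP (fun s => decide (tg s < tg a))
          (l := b :: z₂')
        have f4 := List.length_eq_countP_add_countP (fun s => decide (tg s < tg a)) (l := Q)
        simp only [Bool.not_eq_true, Bool.decide_eq_false] at f1 f2 f3 f4
        simp only [List.length_append]
        simp only [List.length_append] at f1
        omega
    · -- the factor lies in the remaining windows
      exact lift' z S rfl le_rfl rfl (single_or_long tg w L z S hs' hc' hp hz
        ⟨bs, t, by simp [hflat]⟩)

theorem length_eq_sum_filter {β : Type*} (tg : β → Fin 7) (z : List β) :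
    z.length = ∑ j, (z.filter fun s => decide (tg s = j)).length := by
  induction z with
  | nil => simp
  | cons a z ih =>
    rw [List.length_cons, ih]
    have : ∀ j, ((a :: z).filter fun s => decide (tg s = j)).length
        = (if tg a = j then 1 else 0) + (z.filter fun s => decide (tg s = j)).length := by
      intro j
      by_cases h : tg a = j <;> simp [h, add_comm]
    simp only [this, Finset.sum_add_distrib, Finset.sum_ite_eq, Finset.mem_univ, if_true]
    rw [add_comm]

theorem filter_window (M : ℕ) {J : ℕ} (v : Cfg (J + 1)) (c : Cube) (j : Fin 7) :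
    (window M v c).filter (fun s => decide (tagOf s = j))
      = (word M J (child j v + cst (c j))).map (tag j) := by
  have h1 : ∀ k, ((word M J (child k v + cst (c k))).map (tag k)).filter
      (fun s => decide (tagOf s = j))
      = if k = j then (word M J (child k v + cst (c k))).map (tag k) else [] := by
    intro k
    by_cases h : k = j <;> simp [List.filter_map, Function.comp_def, tagOf_tag, h]
  rw [window, List.filter_flatMap]
  simp only [h1]
  fin_cases j <;> simp [List.finRange_succ]

/-- `Separated M J δ`: no common subsequence of the words of complementary configurations is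
longer than `(1 - δ) · wlen`. -/
def Separated (M J : ℕ) (δ : ℝ) : Prop :=
  ∀ (v : Cfg J) (z : List (Sym J)), List.Sublist z (word M J v) →
    List.Sublist z (word M J (v + 1)) → (z.length : ℝ) ≤ (1 - δ) * wlen M J

theorem separated_zero (M : ℕ) : Separated M 0 1 := by
  intro v z h1 h2
  have : z = [] := by
    rcases z with _ | ⟨a, z⟩
    · rfl
    · exfalso
      simp only [word] at h1 h2
      have e1 := List.eq_of_mem_singleton (h1.subset List.mem_cons_self)
      have e2 := List.eq_of_mem_singleton (h2.subset List.mem_cons_self)
      rw [e1] at e2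
      have := congrArg Prod.snd e2
      simp only [Pi.add_apply, Pi.one_apply] at this
      revert this
      generalize v Fin.elim0 = x
      revert x
      decide
  simp [this]

theorem one_add_shift_ne (M l l' : ℕ) :
    3 ≤ (Finset.univ.filter fun j => (0 + shift M l) j ≠ (1 + shift M l') j).card := by
  have key : ∀ a b : Fin 3 → ZMod 2, 3 ≤ (Finset.univ.filter fun j : Fin 7 =>
      (∑ i, a i * simplexGen i j) ≠ 1 + ∑ i, b i * simplexGen i j).card := by decide +kernel
  have h := key (fun i => ((l / M ^ i.1 : ℕ) : ZMod 2)) (fun i => ((l' / M ^ i.1 : ℕ) : ZMod 2))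
  simpa [shift] using h

theorem separated_window {M J : ℕ} {δ : ℝ} (hS : Separated M J δ) (hδ : 0 ≤ δ)
    (v : Cfg (J + 1)) (l l' : ℕ) (z : List (Sym (J + 1)))
    (h1 : List.Sublist z (window M v (0 + shift M l)))
    (h2 : List.Sublist z (window M v (1 + shift M l'))) :
    (z.length : ℝ) ≤ (7 - 3 * δ) * wlen M J := by
  set c := 0 + shift M l with hc
  set c' := 1 + shift M l' with hc'
  have hj : ∀ j, ((z.filter fun s => decide (tagOf s = j)).length : ℝ) ≤
      wlen M J - (if c j ≠ c' j then δ * wlen M J else 0) := by
    intro j
    have a := h1.filter (fun s => decide (tagOf s = j))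
    have b := h2.filter (fun s => decide (tagOf s = j))
    rw [filter_window] at a b
    split_ifs with hne
    · obtain ⟨z', hz', he⟩ := List.sublist_map_iff.1 a
      obtain ⟨z'', hz'', he'⟩ := List.sublist_map_iff.1 b
      rw [he] at he'
      rw [← List.map_injective_iff.2 (tag_injective j) he'] at hz''
      rw [he, List.length_map]
      rcases (show ∀ x y : ZMod 2, x ≠ y → (x = 0 ∧ y = 1) ∨ (x = 1 ∧ y = 0) by decide) _ _ hne
        with ⟨e1, e2⟩ | ⟨e1, e2⟩
      · rw [e1, cst_zero, add_zero] at hz'
        rw [e2, cst_one] at hz''
        nlinarith [hS _ _ hz' hz'']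
      · rw [e2, cst_zero, add_zero] at hz''
        rw [e1, cst_one] at hz'
        nlinarith [hS _ _ hz'' hz']
    · have := a.length_le
      rw [List.length_map, length_word] at this
      simpa using this
  rw [length_eq_sum_filter tagOf z, Nat.cast_sum]
  refine (Finset.sum_le_sum fun j _ => hj j).trans ?_
  rw [Finset.sum_sub_distrib, ← Finset.sum_filter]
  simp only [Finset.sum_const, Finset.card_univ, Fintype.card_fin, nsmul_eq_mul]
  have h3 : (3 : ℝ) ≤ ((Finset.univ.filter fun j => c j ≠ c' j).card : ℝ) := by
    exact_mod_cast one_add_shift_ne M l l'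
  have : 0 ≤ δ * (wlen M J : ℝ) := by positivity
  push_cast
  nlinarith

theorem separated_factor {M J : ℕ} {δ : ℝ} (hS : Separated M J δ) (hδ : 0 ≤ δ) (hδ1 : δ ≤ 1)
    (v : Cfg (J + 1)) : ∀ (rs : List ℕ) (z S : List (Sym (J + 1))),
      List.Sublist z (rs.flatMap fun l => window M v (0 + shift M l)) → List.Sublist z S →
      S <:+: word M (J + 1) (v + 1) →
      (z.length : ℝ) ≤ (5 / (5 + 3 * δ)) * ((7 - 3 * δ) * wlen M J) * rs.length
        + (3 * δ / (5 + 3 * δ)) * S.length
  | [], z, S, hz, _, _ => by
    simp only [List.flatMap_nil] at hz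
    rw [List.eq_nil_of_sublist_nil hz]
    simp only [List.length_nil, Nat.cast_zero, mul_zero, zero_add]
    positivity
  | l :: rs, z, S, hz, hzS, hinf => by
    simp only [List.flatMap_cons] at hz
    obtain ⟨z₁, z₂, rfl, h1, h2⟩ := List.sublist_append_iff.1 hz
    obtain ⟨S₁, S₂, rfl, g1, g2⟩ := List.append_sublist_iff.1 hzS
    have i1 : S₁ <:+: word M (J + 1) (v + 1) := (List.infix_append' [] S₁ S₂).trans hinf
    have i2 : S₂ <:+: word M (J + 1) (v + 1) := by
      refine List.IsInfix.trans ?_ hinf
      exact ⟨S₁, [], by simp⟩
    have rec' := separated_factor hS hδ hδ1 v rs z₂ S₂ h2 g2 i2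
    have hflat : word M (J + 1) (v + 1)
        = ((List.range (M ^ 3)).map fun l' => window M v (1 + shift M l')).flatten := by
      rw [word_add_one, row, List.flatMap_map, List.flatMap_def]
    have hz1 : (z₁.length : ℝ) ≤ (5 / (5 + 3 * δ)) * ((7 - 3 * δ) * wlen M J)
        + (3 * δ / (5 + 3 * δ)) * S₁.length := by
      have hd : (0 : ℝ) < 5 + 3 * δ := by linarith
      have hw : (0 : ℝ) ≤ (wlen M J : ℝ) := by positivity
      have hzl : (z₁.length : ℝ) ≤ 7 * wlen M J := by
        have := h1.length_le
        rw [length_window] at this
        exact_mod_cast this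
      have hgoal : (z₁.length : ℝ) * (5 + 3 * δ)
          ≤ 5 * ((7 - 3 * δ) * wlen M J) + 3 * δ * S₁.length →
          (z₁.length : ℝ) ≤ (5 / (5 + 3 * δ)) * ((7 - 3 * δ) * wlen M J)
            + (3 * δ / (5 + 3 * δ)) * S₁.length := by
        intro h
        rw [div_mul_eq_mul_div, div_mul_eq_mul_div, ← add_div, le_div_iff₀ hd]
        exact h
      apply hgoal
      rcases single_or_long tagOf (wlen M J) _ z₁ S₁
          (fun W hW => by
            obtain ⟨l', -, rfl⟩ := List.mem_map.1 hW
            exact window_sorted M v _)
          (fun W hW P => by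
            obtain ⟨l', -, rfl⟩ := List.mem_map.1 hW
            exact countP_window M v _ P)
          ((window_sorted M v _).sublist h1) g1 (hflat ▸ i1) with (rfl | ⟨W, hW, hzW⟩) | hlong
      · simp only [List.length_nil, Nat.cast_zero, zero_mul]
        have : 0 ≤ (7 - 3 * δ) * (wlen M J : ℝ) := mul_nonneg (by linarith) hw
        positivity
      · obtain ⟨l', -, rfl⟩ := List.mem_map.1 hW
        have a := separated_window hS hδ v l l' z₁ h1 hzW
        have b : (z₁.length : ℝ) ≤ S₁.length := by exact_mod_cast g1.length_le
        nlinarith
      · have b : (z₁.length : ℝ) + 6 * wlen M J ≤ S₁.length := by exact_mod_cast hlong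
        nlinarith
    simp only [List.length_append, List.length_cons]
    push_cast
    linarith

theorem separated_succ {M J : ℕ} {δ : ℝ} (hS : Separated M J δ) (hδ : 0 ≤ δ) (hδ1 : δ ≤ 1) :
    Separated M (J + 1) (15 * δ / (35 + 21 * δ)) := by
  intro v z h1 h2
  rw [word_succ, row, List.flatMap_map] at h1
  have := separated_factor hS hδ hδ1 v (List.range (M ^ 3)) z _ h1 h2 (List.infix_refl _)
  refine this.trans (le_of_eq ?_)
  rw [length_word, List.length_range]
  simp only [wlen, pow_succ]
  push_cast
  have : (5 : ℝ) + 3 * δ ≠ 0 := by linarith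
  have : (35 : ℝ) + 21 * δ ≠ 0 := by linarith
  field_simp
  ring

theorem separated_iterate (M : ℕ) : ∀ J : ℕ, ∃ δ : ℝ, 0 < δ ∧ δ ≤ 1 ∧
    1 / δ ≤ 3 * (7 / 3 : ℝ) ^ J - 2 ∧ Separated M J δ
  | 0 => ⟨1, one_pos, le_rfl, by norm_num, separated_zero M⟩
  | J + 1 => by
    obtain ⟨δ, h0, h1, hb, hS⟩ := separated_iterate M J
    refine ⟨15 * δ / (35 + 21 * δ), by positivity, ?_, ?_, separated_succ hS h0.le h1⟩
    · rw [div_le_one (by positivity)]
      linarith
    · have : 1 / (15 * δ / (35 + 21 * δ)) = 7 / 3 * (1 / δ) + 7 / 5 := by
        field_simp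
        ring
      rw [this, pow_succ]
      nlinarith

end Vale.Agent.P238
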