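import Vale.Agent.P238.Encode
import Vale.Agent.P238.Energy
import Vale.Agent.P238.Separated
import Mathlib.Analysis.SpecialFunctions.Log.Basic
import Mathlib.Analysis.Complex.Exponential
import Mathlib.Data.Nat.Log
import Mathlib.Data.Nat.Sqrt

/-! The super-polylogarithmic lower bound for the `ℓ₁` distortion of edit distance. -/

namespace Vale.Agent.P238

theorem wordDist_nonneg {n : ℕ} (x y : Fin n → Bool) : 0 ≤ wordDist x y :=
  Nat.cast_nonneg _

theorem expansion_nonneg {n : ℕ} (f : (Fin n → Bool) → EllOne) : 0 ≤ expansion f :=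
  Real.iSup_nonneg fun p => div_nonneg (norm_nonneg _) (wordDist_nonneg _ _)

theorem contraction_nonneg {n : ℕ} (f : (Fin n → Bool) → EllOne) : 0 ≤ contraction f :=
  Real.iSup_nonneg fun p => div_nonneg (wordDist_nonneg _ _) (norm_nonneg _)

theorem norm_le_expansion {n : ℕ} (f : (Fin n → Bool) → EllOne) (x y : Fin n → Bool) :
    ‖f x - f y‖ ≤ expansion f * wordDist x y := by
  rcases eq_or_ne x y with rfl | h
  · simp [wordDist]
  · have hpos : 0 < wordDist x y := by
      have : 0 < editDist (List.ofFn x) (List.ofFn y) :=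
        editDist_pos fun e => h (List.ofFn_injective e)
      unfold wordDist
      exact_mod_cast this
    rw [← div_le_iff₀ hpos]
    exact le_ciSup (f := fun p : {p : (Fin n → Bool) × (Fin n → Bool) // p.1 ≠ p.2} =>
      ‖f p.1.1 - f p.1.2‖ / wordDist p.1.1 p.1.2) (Set.finite_range _).bddAbove ⟨(x, y), h⟩

theorem wordDist_le_contraction {n : ℕ} (f : (Fin n → Bool) → EllOne)
    (hf : Function.Injective f) (x y : Fin n → Bool) :
    wordDist x y ≤ contraction f * ‖f x - f y‖ := by
  rcases eq_or_ne x y with rfl | h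
  · simp [wordDist]
  · have hpos : 0 < ‖f x - f y‖ := norm_pos_iff.2 (sub_ne_zero.2 fun e => h (hf e))
    rw [← div_le_iff₀ hpos]
    exact le_ciSup (f := fun p : {p : (Fin n → Bool) × (Fin n → Bool) // p.1 ≠ p.2} =>
      wordDist p.1.1 p.1.2 / ‖f p.1.1 - f p.1.2‖) (Set.finite_range _).bddAbove ⟨(x, y), h⟩

theorem exists_sym_code (J : ℕ) :
    ∃ φ : Sym J → Fin (3 * J + 1) → Bool, Function.Injective φ := by
  have hcard : Fintype.card (Sym J) ≤ Fintype.card (Fin (3 * J + 1) → Bool) := by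
    simp only [Fintype.card_prod, Fintype.card_fun, Fintype.card_fin, ZMod.card,
      Fintype.card_bool, pow_succ, pow_mul]
    exact Nat.mul_le_mul_right _ (Nat.pow_le_pow_left (by norm_num) _)
  obtain ⟨e⟩ := Function.Embedding.nonempty_of_card_le hcard
  exact ⟨e, e.injective⟩

/-- The distortion is at least the separation divided by the average expansion. -/
theorem separation_le {M J n : ℕ} {β δ : ℝ} (hM : 0 < M) (hB : Bound M J β) (hS : Separated M J δ)
    (hn : (6 * J + 5) * wlen M J ≤ n) (f : (Fin n → Bool) → EllOne) (hf : Function.Injective f) :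
    δ ≤ expansion f * contraction f * (6 * J + 5 : ℕ) * β := by
  obtain ⟨φ, hφ⟩ := exists_sym_code J
  set b := 6 * J + 5 with hb
  set pad := n - b * wlen M J with hpad
  set enc : Cfg J → List Bool := fun v =>
    (word M J v).flatMap (code φ) ++ List.replicate pad false with henc
  have hlen : ∀ v, (enc v).length = n := by
    intro v
    simp only [henc, List.length_append, List.length_flatMap, length_code, List.length_replicate,
      List.map_const', List.sum_replicate, smul_eq_mul, length_word]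
    rw [show wlen M J * (2 * (3 * J + 1) + 3) = b * wlen M J by rw [hb]; ring, hpad]
    omega
  set vec : Cfg J → Fin n → Bool := fun v i => (enc v)[i.1]'(by rw [hlen]; exact i.2) with hvec
  have hofn : ∀ v, List.ofFn (vec v) = enc v := fun v =>
    List.ext_getElem (by simp [hlen]) fun i h1 h2 => by simp [hvec]
  have hup : ∀ v v', wordDist (vec v) (vec v') ≤ ((b * pairDist M v v' : ℕ) : ℝ) := by
    intro v v'
    rw [wordDist, hofn, hofn]
    refine Nat.cast_le.2 ((editDist_append_right_le _ _ _).trans ?_)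
    refine (editDist_flatMap_block_le (code φ) (length_code φ) _ _).trans ?_
    rw [hb, show 2 * (3 * J + 1) + 3 = 6 * J + 5 by ring]
    exact Nat.mul_le_mul_left _ (by unfold pairDist; omega)
  have hlow : ∀ v, δ * wlen M J ≤ wordDist (vec v) (vec (v + 1)) := by
    intro v
    obtain ⟨z, h1, h2, h3⟩ := exists_common_sublist hφ pad (word M J v) (word M J (v + 1))
    have := hS v z h1 h2
    rw [length_word] at h3
    have h3' : (wlen M J : ℝ) ≤ z.length + wordDist (vec v) (vec (v + 1)) := by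
      rw [wordDist, hofn, hofn]
      exact_mod_cast h3
    linarith
  have hsum := hB (fun v => f (vec v)) (expansion f * b)
    (mul_nonneg (expansion_nonneg f) (Nat.cast_nonneg _)) fun v v' => by
      refine (norm_le_expansion f _ _).trans ?_
      rw [mul_assoc]
      refine mul_le_mul_of_nonneg_left ?_ (expansion_nonneg f)
      exact_mod_cast hup v v'
  have hbelow : (Fintype.card (Cfg J) : ℝ) * (δ * wlen M J)
      ≤ contraction f * ∑ v, ‖f (vec v) - f (vec (v + 1))‖ := by
    rw [Finset.mul_sum]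
    refine le_trans (le_of_eq ?_) (Finset.sum_le_sum fun v _ =>
      (hlow v).trans (wordDist_le_contraction f hf _ _))
    simp
  have hfin := hbelow.trans (mul_le_mul_of_nonneg_left hsum (contraction_nonneg f))
  have hpos : (0 : ℝ) < Fintype.card (Cfg J) * wlen M J := by
    have : 0 < wlen M J := pow_pos (Nat.mul_pos (by norm_num) (pow_pos hM 3)) J
    have : 0 < Fintype.card (Cfg J) := Fintype.card_pos
    positivity
  refine le_of_mul_le_mul_left (le_trans (le_of_eq ?_) (hfin.trans (le_of_eq ?_))) hpos <;> ring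

/-- The explicit lower bound at depth `J`. -/
theorem distortion_lower_depth {J n : ℕ} (hn : (6 * J + 5) * wlen (24 * 4 ^ J) J ≤ n)
    (f : (Fin n → Bool) → EllOne) (hf : Function.Injective f) :
    (9 / 7 : ℝ) ^ J ≤ 3 * (J + 2) * (6 * J + 5) * (expansion f * contraction f) := by
  have hM : 0 < 24 * 4 ^ J := by positivity
  have he : Even (24 * 4 ^ J) := ⟨12 * 4 ^ J, by ring⟩
  have hM3 : (24 : ℝ) * 3 ^ J ≤ ((24 * 4 ^ J : ℕ) : ℝ) := by
    push_cast
    gcongr
    norm_num
  obtain ⟨β, hβ, hB⟩ := bound_iterate hM he J hM3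
  obtain ⟨δ, hδ, -, hinv, hS⟩ := separated_iterate (24 * 4 ^ J) J
  have h := separation_le hM hB hS hn f hf
  set D := expansion f * contraction f with hD
  have hD0 : 0 ≤ D := mul_nonneg (expansion_nonneg f) (contraction_nonneg f)
  push_cast at h
  have hp : (0 : ℝ) < 3 ^ J := by positivity
  have h73 : (0 : ℝ) < (7 / 3) ^ J := by positivity
  have h1 : 1 ≤ δ * (3 * (7 / 3 : ℝ) ^ J) := by
    have h' : 1 / δ * δ = 1 := by field_simp
    nlinarith
  have h2 : δ * 3 ^ J ≤ D * (6 * J + 5) * (J + 2) := by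
    calc δ * 3 ^ J ≤ D * (6 * J + 5) * β * 3 ^ J := by nlinarith
      _ = D * (6 * J + 5) * (β * 3 ^ J) := by ring
      _ ≤ D * (6 * J + 5) * (J + 2) := by
          refine mul_le_mul_of_nonneg_left hβ ?_
          positivity
  have h97 : (9 / 7 : ℝ) ^ J * (7 / 3) ^ J = 3 ^ J := by
    rw [← mul_pow]; norm_num
  refine le_of_mul_le_mul_right ?_ h73
  rw [h97]
  calc (3 : ℝ) ^ J ≤ δ * (3 * (7 / 3) ^ J) * 3 ^ J := by nlinarith
    _ = 3 * (7 / 3) ^ J * (δ * 3 ^ J) := by ring
    _ ≤ 3 * (7 / 3) ^ J * (D * (6 * J + 5) * (J + 2)) := by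
        refine mul_le_mul_of_nonneg_left h2 ?_
        positivity
    _ = _ := by ring

theorem wlen_le {J : ℕ} (hJ : 1 ≤ J) :
    (6 * J + 5) * wlen (24 * 4 ^ J) J ≤ 2 ^ (36 * J ^ 2) := by
  have h1 : 7 * (24 * 4 ^ J) ^ 3 ≤ 2 ^ (17 + 6 * J) := by
    rw [show 17 + 6 * J = 17 + 2 * J * 3 by ring, pow_add, pow_mul, pow_mul,
      show (2 : ℕ) ^ 2 = 4 by norm_num, mul_pow, ← mul_assoc]
    exact Nat.mul_le_mul_right _ (by norm_num)
  have h2 : 6 * J + 5 ≤ 2 ^ (3 * J + 3) := by
    have : 3 * J + 3 ≤ 2 ^ (3 * J + 3) := Nat.lt_two_pow_self.le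
    have h' : 6 * J + 5 ≤ 2 * (3 * J + 3) := by omega
    have h'' : 3 * J + 3 ≤ 2 ^ (3 * J + 2) := Nat.lt_two_pow_self.trans_le' (by omega)
    rw [pow_succ]
    omega
  calc (6 * J + 5) * wlen (24 * 4 ^ J) J
      ≤ 2 ^ (3 * J + 3) * (2 ^ (17 + 6 * J)) ^ J :=
        Nat.mul_le_mul h2 (Nat.pow_le_pow_left h1 _)
    _ = 2 ^ (3 * J + 3 + (17 + 6 * J) * J) := by rw [← pow_mul, ← pow_add]
    _ ≤ 2 ^ (36 * J ^ 2) := Nat.pow_le_pow_right (by norm_num) (by nlinarith)

theorem exists_injective (n : ℕ) : ∃ f : (Fin n → Bool) → EllOne, Function.Injective f := by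
  refine ⟨fun x => lp.single 1 (Fintype.equivFin (Fin n → Bool) x).1 (1 : ℝ), fun x y h => ?_⟩
  apply (Fintype.equivFin (Fin n → Bool)).injective
  apply Fin.ext
  by_contra hne
  have := congrArg (fun u : EllOne => u (Fintype.equivFin (Fin n → Bool) x).1) h
  simp [lp.single_apply, hne] at this

theorem editDistortion_lower :
    ∃ c : ℝ, 0 < c ∧ ∃ N : ℕ, ∀ n ≥ N,
      Real.exp (c * Real.sqrt (Real.log n)) ≤ editDistortion n := by
  obtain ⟨K, hK⟩ : ∃ K : ℕ, 10000000 ≤ K := ⟨_, le_rfl⟩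
  refine ⟨1 / 120, by norm_num, 2 ^ ((6 * K) ^ 2), fun n hn => ?_⟩
  refine le_csInf ?_ ?_
  · obtain ⟨f, hf⟩ := exists_injective n
    exact ⟨_, f, hf, rfl⟩
  rintro D ⟨f, hf, rfl⟩
  set L := Nat.log 2 n with hL
  set J := Nat.sqrt L / 6 with hJ
  have hn0 : n ≠ 0 := by
    have := Nat.one_le_two_pow.trans hn
    omega
  have hKJ : K ≤ J := by
    rw [hJ, Nat.le_div_iff_mul_le (by norm_num), Nat.le_sqrt', mul_comm K 6, hL]
    exact Nat.le_log_of_pow_le (by norm_num) hn
  have hsize : (6 * J + 5) * wlen (24 * 4 ^ J) J ≤ n := by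
    refine (wlen_le (by omega)).trans (le_trans (Nat.pow_le_pow_right (by norm_num) ?_)
      (Nat.pow_log_le_self 2 hn0))
    have h1 : 6 * J ≤ Nat.sqrt L := by rw [hJ]; exact Nat.mul_div_le _ _
    have := Nat.pow_le_pow_left h1 2
    have := Nat.sqrt_le' L
    rw [mul_pow] at *
    omega
  have hmain := distortion_lower_depth hsize f hf
  set E := expansion f * contraction f with hE
  have hx : (10000000 : ℝ) ≤ (J : ℝ) := by exact_mod_cast hK.trans hKJ
  have hlog : Real.sqrt (Real.log n) ≤ 6 * ((J : ℝ) + 1) := by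
    have h1 : n < 2 ^ (L + 1) := Nat.lt_pow_succ_log_self (by norm_num) n
    have h2 : Real.log n ≤ (L + 1 : ℕ) := by
      have hle : Real.log n ≤ Real.log ((2 : ℝ) ^ (L + 1)) := by
        apply Real.log_le_log (by exact_mod_cast Nat.pos_of_ne_zero hn0)
        exact_mod_cast h1.le
      rw [Real.log_pow] at hle
      refine hle.trans (mul_le_of_le_one_right (Nat.cast_nonneg _) ?_)
      have := Real.log_le_sub_one_of_pos (show (0 : ℝ) < 2 by norm_num)
      linarith
    have h3 : L + 1 ≤ (6 * (J + 1)) ^ 2 := by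
      refine le_trans ?_ (Nat.pow_le_pow_left (show Nat.sqrt L + 1 ≤ 6 * (J + 1) by omega) 2)
      exact Nat.lt_succ_sqrt' L
    rw [Real.sqrt_le_left (by positivity)]
    exact h2.trans (by exact_mod_cast h3)
  have h97 : Real.exp ((J : ℝ) * (2 / 9)) ≤ (9 / 7 : ℝ) ^ J := by
    rw [Real.exp_nat_mul]
    refine pow_le_pow_left₀ (Real.exp_pos _).le ?_ _
    have h := Real.add_one_le_exp (-(2 / 9 : ℝ))
    have h' : Real.exp (2 / 9 : ℝ) * Real.exp (-(2 / 9 : ℝ)) = 1 := by
      rw [← Real.exp_add]; simp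
    nlinarith [Real.exp_pos (2 / 9 : ℝ)]
  have hpoly : 3 * ((J : ℝ) + 2) * (6 * J + 5) ≤ Real.exp ((J : ℝ) / 9) := by
    refine le_trans ?_ (Real.pow_div_factorial_le_exp _ (by positivity) 3)
    norm_num [Nat.factorial]
    nlinarith [sq_nonneg (J : ℝ)]
  have hE0 : 0 ≤ E := mul_nonneg (expansion_nonneg f) (contraction_nonneg f)
  have hkey : Real.exp ((J : ℝ) * (2 / 9)) ≤ Real.exp ((J : ℝ) / 9) * E :=
    h97.trans (hmain.trans (mul_le_mul_of_nonneg_right hpoly hE0))
  refine le_of_mul_le_mul_left (le_trans ?_ hkey) (Real.exp_pos ((J : ℝ) / 9))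
  rw [← Real.exp_add]
  refine Real.exp_le_exp.2 ?_
  linarith

end Vale.Agent.P238
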